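import Vale.Agent.P146.H161.RowCx

set_option linter.all false

/-!
The two integrations by parts of the row identity, separately (pointwise in the frozen point):
* `cx_lin` : `E[⟨h⟩ (c · B) | F] = k E[⟨h Y⟩ - (1 - x) ⟨h⟩ ⟨Y⟩ | F]`;
* `cx_N_lin` : the same with `N = E[⟨h⟩ | F']` instead of `⟨h⟩`;
* `cx_lin_sq` : `E[(c · B)² | F] = |c|² + k² x E[⟨Y²⟩ - (1 - x) ⟨Y⟩² | F]`;
and the quadratic form up to rank one: `qdg_two`.
-/

open MeasureTheory ProbabilityTheory Filter Topology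

namespace Vale.Agent.P146.H161

open Vale.Agent.P157.Lv Vale.Agent.P146.H196 Vale.Agent.P146.H646

variable {ι : Type} [Fintype ι] [DecidableEq ι]

/-- admissible weights of exponential growth -/
lemma wt_of_eg {w : (ι → ℝ) → ℝ} (ew : EG w) (hw : ∀ z, 0 < w z) : Wt (gg ι) w :=
  ⟨hw, ew.meas, fun K z => (eg_glue ew K z).integrable⟩

lemma bm_of_eg {φ : (ι → ℝ) → ℝ} (hm : Measurable φ) {C : ℝ} (hC : ∀ z, |φ z| ≤ C) : BM φ :=
  ⟨hm, C, hC⟩

/-- linearity of the conditional mean for functions of exponential growth -/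
lemma cx_add_eg {K : Finset ι} {w f g : (ι → ℝ) → ℝ} (ew : EG w) (hf : EG f) (hg : EG g)
    (z : ι → ℝ) : cx (gg ι) K w (fun y => f y + g y) z
      = cx (gg ι) K w f z + cx (gg ι) K w g z := by
  unfold cx
  rw [← add_div, ← integral_add (eg_glue (ew.mul hf) K z).integrable
    (eg_glue (ew.mul hg) K z).integrable]
  congr 1
  refine integral_congr_ae (Eventually.of_forall fun y => ?_)
  simp only
  ring

lemma cx_cmul (K : Finset ι) (w : (ι → ℝ) → ℝ) (a : ℝ) (f : (ι → ℝ) → ℝ) (z : ι → ℝ) :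
    cx (gg ι) K w (fun y => a * f y) z = a * cx (gg ι) K w f z := by
  unfold cx
  rw [← mul_div_assoc, ← integral_const_mul]
  congr 1
  refine integral_congr_ae (Eventually.of_forall fun y => ?_)
  simp only
  ring

lemma cx_sum_eg {K : Finset ι} {w : (ι → ℝ) → ℝ} (ew : EG w) {A : Type*} (s : Finset A)
    {f : A → (ι → ℝ) → ℝ} (hf : ∀ a ∈ s, EG (f a)) (z : ι → ℝ) :
    cx (gg ι) K w (fun y => ∑ a ∈ s, f a y) z = ∑ a ∈ s, cx (gg ι) K w (f a) z := by
  classical
  induction s using Finset.induction_on with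
  | empty =>
    simp only [Finset.sum_empty]
    have := cx_cmul K w 0 (fun _ => (1 : ℝ)) z
    simpa using this
  | insert a s ha ih =>
    simp only [Finset.sum_insert ha]
    rw [cx_add_eg ew (hf a (Finset.mem_insert_self _ _))
      (EG.sum s fun i hi => hf i (Finset.mem_insert_of_mem hi)),
      ih fun i hi => hf i (Finset.mem_insert_of_mem hi)]

section gibbs

variable {Ω : Type} [MeasurableSpace Ω] {m : Measure Ω} {k : ℝ} {S : ι → Ω → ℝ} {M0 : ℝ}
  {K K' R : Finset ι} {h : Ω → ℝ}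

lemma wn_pos' (hG : GM m S M0) (k x : ℝ) (K : Finset ι) (z : ι → ℝ) :
    0 < wn (gg ι) K (Zxm m k S x) z := by
  have h1 := J_pos (lev := lvK K) (l := 0) (hG.eg_Zx k x) (fun y => Zxm_pos x y) z
  unfold Vale.Agent.P157.Lv.J at h1
  simp only [mix_lvK] at h1
  exact h1

lemma eg_rsg (hG : GM m S M0) (k x : ℝ) (hh : Bm h) {Y : Ω → ℝ} (hY : Bm Y) :
    EG (rsg m k S x h Y) := by
  unfold rsg
  exact (hG.eg_av k (hh.mul hY)).sub (((hG.eg_av k hh).mul (hG.eg_av k hY)).const_mul _)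

lemma eg_qdg (hG : GM m S M0) (k x : ℝ) {Y : Ω → ℝ} (hY : Bm Y) :
    EG (qdg m k S x Y) := by
  unfold qdg
  exact (hG.eg_av k (hY.pow 2)).sub (((hG.eg_av k hY).pow 2).const_mul _)

/-- **first integration by parts**, one coordinate -/
theorem cx_coord (hG : GM m S M0) (k x : ℝ) {e : ι} (he : e ∉ K) (hh : Bm h) (z : ι → ℝ) :
    cx (gg ι) K (Zxm m k S x) (fun y => avm m k S h y * y e) z
      = k * cx (gg ι) K (Zxm m k S x) (rsg m k S x h (S e)) z := by
  have hd := (pd_Zx hG k x e).mul (hG.pd_av k e hh)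
  have e1 : EG fun y => Zxm m k S x y * avm m k S h y := (hG.eg_Zx k x).mul (hG.eg_av k hh)
  have e2 : EG fun z => Zxm m k S x z * (x * (k * avm m k S (S e) z)) * avm m k S h z
      + Zxm m k S x z * (k * (avm m k S (fun w => h w * S e w) z
        - avm m k S h z * avm m k S (S e) z)) :=
    (((hG.eg_Zx k x).mul (((hG.eg_av k (hG.bS e)).const_mul k).const_mul x)).mul
      (hG.eg_av k hh)).add ((hG.eg_Zx k x).mul (((hG.eg_av k (hh.mul (hG.bS e))).sub
        ((hG.eg_av k hh).mul (hG.eg_av k (hG.bS e)))).const_mul k))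
  have h1 := stein_glue hd e1 e2 he z
  unfold cx
  rw [← mul_div_assoc, ← integral_const_mul]
  congr 1
  calc ∫ y, Zxm m k S x (glue K z y) * (avm m k S h (glue K z y) * (glue K z y) e) ∂(gI ι)
      = ∫ y, y e * (Zxm m k S x (glue K z y) * avm m k S h (glue K z y)) ∂(gI ι) := by
        refine integral_congr_ae (Eventually.of_forall fun y => ?_)
        simp only
        rw [glue_not_mem he]
        ring
    _ = _ := h1
    _ = _ := by
        refine integral_congr_ae (Eventually.of_forall fun y => ?_)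
        simp only
        unfold rsg
        ring

lemma rsg_lin (hG : GM m S M0) (k x : ℝ) (hh : Bm h) (c y : ι → ℝ) :
    rsg m k S x h (YS R c S) y = ∑ e ∈ R, c e * rsg m k S x h (S e) y := by
  have h1 : avm m k S (fun ω => h ω * YS R c S ω) y
      = ∑ e ∈ R, c e * avm m k S (fun w => h w * S e w) y := by
    have e1 : (fun ω => h ω * YS R c S ω) = fun ω => ∑ e ∈ R, c e * (h ω * S e ω) := by
      funext ω
      unfold YS
      rw [Finset.mul_sum]
      exact Finset.sum_congr rfl fun e _ => by ring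
    rw [e1, hG.av_sum k R fun e _ => ((hh.mul (hG.bS e)).const_mul (c e))]
    exact Finset.sum_congr rfl fun e _ => av_mul m k S (c e) (fun ω => h ω * S e ω) y
  have h2 : avm m k S (YS R c S) y = ∑ e ∈ R, c e * avm m k S (S e) y := by
    unfold YS
    rw [hG.av_sum k R fun e _ => ((hG.bS e).const_mul (c e))]
    exact Finset.sum_congr rfl fun e _ => av_mul m k S (c e) (S e) y
  unfold rsg
  rw [h1, h2, Finset.mul_sum, Finset.mul_sum, ← Finset.sum_sub_distrib]
  exact Finset.sum_congr rfl fun e _ => by ring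

/-- **first integration by parts**, a direction of the row -/
theorem cx_lin (hG : GM m S M0) (k x : ℝ) (hKR : Disjoint K R) (hh : Bm h) (c z : ι → ℝ) :
    cx (gg ι) K (Zxm m k S x) (fun y => avm m k S h y * lc R c y) z
      = k * cx (gg ι) K (Zxm m k S x) (rsg m k S x h (YS R c S)) z := by
  have e1 : (fun y => avm m k S h y * lc R c y)
      = fun y => ∑ e ∈ R, c e * (avm m k S h y * y e) := by
    funext y
    unfold lc
    rw [Finset.mul_sum]
    exact Finset.sum_congr rfl fun e _ => by ring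
  have e2 : rsg m k S x h (YS R c S) = fun y => ∑ e ∈ R, c e * rsg m k S x h (S e) y := by
    funext y; exact rsg_lin hG k x hh c y
  rw [e1, e2, cx_sum_eg (hG.eg_Zx k x) R (fun e _ =>
      ((hG.eg_av k hh).mul (EG.coord e)).const_mul (c e)),
    cx_sum_eg (hG.eg_Zx k x) R (fun e _ => (eg_rsg hG k x hh (hG.bS e)).const_mul (c e)),
    Finset.mul_sum]
  refine Finset.sum_congr rfl fun e he => ?_
  rw [cx_cmul, cx_cmul, cx_coord hG k x (Finset.disjoint_right.1 hKR he) hh]
  ring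

/-- **first integration by parts** for the conditional mean `N` given `K' ⊇ K ∪ R` -/
theorem cx_N_lin (hG : GM m S M0) (k x : ℝ) (hKR : Disjoint K R) (hK : K ⊆ K') (hR : R ⊆ K')
    (hh : Bm h) (c z : ι → ℝ) :
    cx (gg ι) K (Zxm m k S x)
        (fun y => cx (gg ι) K' (Zxm m k S x) (avm m k S h) y * lc R c y) z
      = k * cx (gg ι) K (Zxm m k S x) (rsg m k S x h (YS R c S)) z := by
  rw [← cx_lin hG k x hKR hh]
  obtain ⟨C, hC, hb⟩ := hh.2
  have h1 := int_cx_eg (K := K') (w := fun y => Zxm m k S x (glue K z y))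
    (φ := fun y => avm m k S h (glue K z y)) (Q := lc R c)
    (eg_glue (hG.eg_Zx k x) K z) (fun y => Zxm_pos x _) (eg_glue (hG.eg_av k hh) K z)
    (fun y => hG.abs_av_le k hh.1 hb _) (dep_lc hR c) (eg_lc R c)
  simp only [cx_glue hK] at h1
  rw [cx_num, cx_num]
  congr 1
  simp only [lc_glue hKR]
  exact h1

/-- **second integration by parts** -/
theorem cx_lin_sq (hG : GM m S M0) (k x : ℝ) (hKR : Disjoint K R) (c z : ι → ℝ) :
    cx (gg ι) K (Zxm m k S x) (fun y => lc R c y ^ 2) z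
      = ∑ e ∈ R, c e ^ 2 + k ^ 2 * x * cx (gg ι) K (Zxm m k S x) (qdg m k S x (YS R c S)) z := by
  have hN : ∀ e ∈ R, e ∉ K := fun e he => Finset.disjoint_right.1 hKR he
  have hst := ibp2' (R := R) (G := fun y => Zxm m k S x (glue K z y))
    (L := fun e y => x * (k * avm m k S (S e) (glue K z y)))
    (L2 := fun e f y => x * (k * (k * (avm m k S (fun w => S e w * S f w) (glue K z y)
      - avm m k S (S e) (glue K z y) * avm m k S (S f) (glue K z y))))) (u := fun e _ => c e)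
    (fun e _ e' _ y r => rfl) (fun e _ => EG.const _)
    (fun e he => pd_glue (hN e he) (pd_Zx hG k x e) z) (eg_glue (hG.eg_Zx k x) K z)
    (fun e he => eg_glue (((hG.eg_av k (hG.bS e)).const_mul k).const_mul x) K z)
    (fun e he f hf => pd_glue (hN f hf) (((hG.pd_av k f (hG.bS e)).const_mul k).const_mul x) z)
    (fun e he f hf => eg_glue (((((hG.eg_av k ((hG.bS e).mul (hG.bS f))).sub
      ((hG.eg_av k (hG.bS e)).mul (hG.eg_av k (hG.bS f)))).const_mul k).const_mul k).const_mul x)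
      K z)
  have hwn := wn_pos' hG k x K z
  have hc2 : ∫ y, (∑ e ∈ R, (c e) ^ 2) * Zxm m k S x (glue K z y) ∂(gI ι)
      = (∑ e ∈ R, c e ^ 2) * wn (gg ι) K (Zxm m k S x) z := by
    rw [integral_const_mul]
    rfl
  have e2 : ∀ y, quad R (fun e _ => c e) (fun e y => x * (k * avm m k S (S e) (glue K z y)))
      (fun e f y => x * (k * (k * (avm m k S (fun w => S e w * S f w) (glue K z y)
      - avm m k S (S e) (glue K z y) * avm m k S (S f) (glue K z y))))) y
      = k ^ 2 * x * qdg m k S x (YS R c S) (glue K z y) := fun y =>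
    sum_qdg hG k x c (glue K z y)
  have e3 : ∀ y, lin R (fun e _ => c e) y = lc R c (glue K z y) := fun y => by
    rw [lc_glue hKR]; rfl
  simp only [e2, e3, hc2] at hst
  rw [cx_num, cx_num, hst]
  have e4 : ∫ y, k ^ 2 * x * qdg m k S x (YS R c S) (glue K z y)
      * Zxm m k S x (glue K z y) ∂(gI ι)
      = k ^ 2 * x * ∫ y, qdg m k S x (YS R c S) (glue K z y)
      * Zxm m k S x (glue K z y) ∂(gI ι) := by
    rw [← integral_const_mul]
    refine integral_congr_ae (Eventually.of_forall fun y => ?_)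
    simp only
    ring
  rw [e4]
  field_simp

/-! ### the quadratic form up to rank one -/

/-- Cauchy-Schwarz for a Gibbs average -/
lemma av_cs (hG : GM m S M0) (k : ℝ) {f g : Ω → ℝ} (hf : Bm f) (hg : Bm g) (y : ι → ℝ) :
    avm m k S (fun ω => f ω * g ω) y ^ 2
      ≤ avm m k S (fun ω => f ω ^ 2) y * avm m k S (fun ω => g ω ^ 2) y := by
  set A := avm m k S (fun ω => f ω ^ 2) y with hA
  set B := avm m k S (fun ω => f ω * g ω) y with hB
  set D := avm m k S (fun ω => g ω ^ 2) y with hD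
  have h1 : ∀ a b : ℝ, 0 ≤ a ^ 2 * A + 2 * (a * b) * B + b ^ 2 * D := by
    intro a b
    have h2 : 0 ≤ avm m k S (fun ω => (a * f ω + b * g ω) ^ 2) y :=
      hG.av_nonneg k (fun ω => sq_nonneg _) y
    have h3 : (fun ω => (a * f ω + b * g ω) ^ 2)
        = fun ω => a ^ 2 * f ω ^ 2 + (2 * (a * b) * (f ω * g ω) + b ^ 2 * g ω ^ 2) := by
      funext ω; ring
    rw [h3, hG.av_add k ((hf.pow 2).const_mul _) (((hf.mul hg).const_mul _).add
      ((hg.pow 2).const_mul _)), hG.av_add k ((hf.mul hg).const_mul _) ((hg.pow 2).const_mul _),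
      av_mul, av_mul, av_mul] at h2
    linarith
  have hA0 : 0 ≤ A := hG.av_nonneg k (fun ω => sq_nonneg _) y
  have hD0 : 0 ≤ D := hG.av_nonneg k (fun ω => sq_nonneg _) y
  have h4 := h1 B (-A)
  have h5 := h1 D (-B)
  have h6 := h1 1 1
  have h7 := h1 1 (-1)
  by_cases h0 : A + D = 0
  · have hA' : A = 0 := by linarith
    have hD' : D = 0 := by linarith
    rw [hA', hD'] at h6 h7 ⊢
    have : B = 0 := by nlinarith
    rw [this]; simp
  · have hpos : 0 < A + D := lt_of_le_of_ne (by linarith) (Ne.symm h0)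
    nlinarith

/-- **The quadratic form up to rank one**, pointwise: `σ² = 1`, `m ∈ ℝ` arbitrary. -/
theorem qdg_pt (hG : GM m S M0) (k : ℝ) {x : ℝ} (hx0 : 0 ≤ x) (hx1 : x ≤ 1) {σ P : Ω → ℝ}
    (hσ : Bm σ) (hσ1 : ∀ ω, σ ω ^ 2 = 1) (hP : Bm P) (p : ℝ) (y : ι → ℝ) :
    |qdg m k S x (fun ω => σ ω * P ω) y
        - (2 * p * avm m k S P y - p ^ 2 - (1 - x) * p ^ 2 * avm m k S σ y ^ 2)|
      ≤ 2 * avm m k S (fun ω => (P ω - p) ^ 2) y
        + 2 * |p| * Real.sqrt (avm m k S (fun ω => (P ω - p) ^ 2) y) := by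
  have hPp : Bm fun ω => P ω - p := hP.sub (Bm.const p)
  have e1 : avm m k S (fun ω => (P ω - p) ^ 2) y
      = avm m k S (fun ω => P ω ^ 2) y - 2 * p * avm m k S P y + p ^ 2 := by
    have h3 : (fun ω => (P ω - p) ^ 2) = fun ω => P ω ^ 2 + ((-(2 * p)) * P ω + p ^ 2) := by
      funext ω; ring
    rw [h3, hG.av_add k (hP.pow 2) ((hP.const_mul _).add (Bm.const _)),
      hG.av_add k (hP.const_mul _) (Bm.const _), av_mul, hG.av_const]
    ring
  have e2 : avm m k S (fun ω => (σ ω * P ω) ^ 2) y = avm m k S (fun ω => P ω ^ 2) y := by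
    congr 1
    funext ω
    rw [mul_pow, hσ1, one_mul]
  have e3 : avm m k S (fun ω => σ ω * (P ω - p)) y
      = avm m k S (fun ω => σ ω * P ω) y - p * avm m k S σ y := by
    have h3 : (fun ω => σ ω * (P ω - p)) = fun ω => σ ω * P ω - p * σ ω := by
      funext ω; ring
    rw [h3, hG.av_sub k (hσ.mul hP) (hσ.const_mul p), av_mul]
  have h4 : (avm m k S (fun ω => σ ω * P ω) y - p * avm m k S σ y) ^ 2
      ≤ avm m k S (fun ω => (P ω - p) ^ 2) y := by
    rw [← e3]
    refine (av_cs hG k hσ hPp y).trans ?_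
    simp only [hσ1]
    rw [hG.av_const, one_mul]
  have hd : |avm m k S σ y| ≤ 1 := by
    refine hG.abs_av_le k hσ.1 (fun ω => ?_) y
    have := hσ1 ω
    exact (sq_le_one_iff_abs_le_one _).1 this.le
  have h5 := quad_two (x := x) (m := p) (a := avm m k S (fun ω => P ω ^ 2) y)
    (b := avm m k S P y) (c := avm m k S (fun ω => σ ω * P ω) y) (d := avm m k S σ y)
    (r := avm m k S (fun ω => (P ω - p) ^ 2) y) hx0 hx1 e1 h4 hd
  unfold qdg
  rw [e2]
  exact h5

/-- Jensen for the square root -/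
lemma cx_sqrt_le (hG : GM m S M0) (k x : ℝ) {f : (ι → ℝ) → ℝ} (hf : BM f)
    (hf0 : ∀ y, 0 ≤ f y) (z : ι → ℝ) :
    cx (gg ι) K (Zxm m k S x) (fun y => Real.sqrt (f y)) z
      ≤ Real.sqrt (cx (gg ι) K (Zxm m k S x) f z) := by
  have hw : Wt (gg ι) (Zxm m k S x) := wt_of_eg (hG.eg_Zx k x) fun y => Zxm_pos x y
  obtain ⟨C, hC⟩ := hf.bd
  have hb : BM fun y => Real.sqrt (f y) := by
    refine ⟨hf.meas.sqrt, Real.sqrt C, fun y => ?_⟩
    rw [abs_of_nonneg (Real.sqrt_nonneg _)]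
    exact Real.sqrt_le_sqrt ((le_abs_self _).trans (hC y))
  have h1 := cx_sq_le hw (K := K) hb z
  simp only [Real.sq_sqrt (hf0 _)] at h1
  exact Real.le_sqrt_of_sq_le h1

/-- **The quadratic form up to rank one**, given the frozen coordinates: `p = E[⟨P⟩ | F]`,
`ρ = E[⟨(P - p)²⟩ | F]`. -/
theorem qdg_cx (hG : GM m S M0) (k : ℝ) {x : ℝ} (hx0 : 0 ≤ x) (hx1 : x ≤ 1) {σ P : Ω → ℝ}
    (hσ : Bm σ) (hσ1 : ∀ ω, σ ω ^ 2 = 1) (hP : Bm P) {p : ℝ} (z : ι → ℝ)
    (hp : cx (gg ι) K (Zxm m k S x) (avm m k S P) z = p) :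
    |cx (gg ι) K (Zxm m k S x) (qdg m k S x fun ω => σ ω * P ω) z
        - p ^ 2 * (1 - (1 - x) * cx (gg ι) K (Zxm m k S x) (fun y => avm m k S σ y ^ 2) z)|
      ≤ 2 * cx (gg ι) K (Zxm m k S x) (avm m k S fun ω => (P ω - p) ^ 2) z
        + 2 * |p| * Real.sqrt (cx (gg ι) K (Zxm m k S x) (avm m k S fun ω => (P ω - p) ^ 2) z) := by
  have hw : Wt (gg ι) (Zxm m k S x) := wt_of_eg (hG.eg_Zx k x) fun y => Zxm_pos x y
  have bmav : ∀ {f : Ω → ℝ}, Bm f → BM (avm m k S f) := fun {f} hf => by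
    obtain ⟨C, hC, hb⟩ := hf.2
    exact ⟨(hG.cont_av k hf).measurable, C, hG.abs_av_le k hf.1 hb⟩
  have hPp : Bm fun ω => (P ω - p) ^ 2 := (hP.sub (Bm.const p)).pow 2
  have hr0 : ∀ y, 0 ≤ avm m k S (fun ω => (P ω - p) ^ 2) y := fun y =>
    hG.av_nonneg k (fun ω => sq_nonneg _) y
  set r : (ι → ℝ) → ℝ := avm m k S fun ω => (P ω - p) ^ 2 with hr
  have br : BM r := bmav hPp
  obtain ⟨Cr, hCr⟩ := br.bd
  have bsr : BM fun y => Real.sqrt (r y) := by
    refine ⟨br.meas.sqrt, Real.sqrt Cr, fun y => ?_⟩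
    rw [abs_of_nonneg (Real.sqrt_nonneg _)]
    exact Real.sqrt_le_sqrt ((le_abs_self _).trans (hCr y))
  have bq : BM (qdg m k S x fun ω => σ ω * P ω) := by
    unfold qdg
    have h1 := bmav ((hσ.mul hP).pow 2)
    have h2 := bmav (hσ.mul hP)
    have h3 : BM fun y => (1 - x) * avm m k S (fun ω => σ ω * P ω) y ^ 2 := by
      have := (BM.const (1 - x)).mul (h2.mul h2)
      simpa only [sq] using this
    exact h1.sub h3
  have bσ2 : BM fun y => avm m k S σ y ^ 2 := by
    have := (bmav hσ).mul (bmav hσ)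
    simpa only [sq] using this
  set g : (ι → ℝ) → ℝ := fun y => 2 * p * avm m k S P y
    - (p ^ 2 + (1 - x) * p ^ 2 * avm m k S σ y ^ 2) with hg
  have bg : BM g := by
    refine ((BM.const (2 * p)).mul (bmav hP)).sub ((BM.const (p ^ 2)).add ?_)
    exact (BM.const ((1 - x) * p ^ 2)).mul bσ2
  set e : (ι → ℝ) → ℝ := fun y => 2 * r y + 2 * |p| * Real.sqrt (r y) with he
  have be : BM e := ((BM.const 2).mul br).add ((BM.const (2 * |p|)).mul bsr)
  have hpt : ∀ y, |qdg m k S x (fun ω => σ ω * P ω) y - g y| ≤ e y := by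
    intro y
    have h1 := qdg_pt hG k hx0 hx1 hσ hσ1 hP p y
    have h2 : 2 * p * avm m k S P y - p ^ 2 - (1 - x) * p ^ 2 * avm m k S σ y ^ 2 = g y := by
      simp only [hg]; ring
    rw [h2] at h1
    exact h1
  have hcg : cx (gg ι) K (Zxm m k S x) g z
      = p ^ 2 * (1 - (1 - x) * cx (gg ι) K (Zxm m k S x) (fun y => avm m k S σ y ^ 2) z) := by
    simp only [hg]
    have b1 : BM fun y => 2 * p * avm m k S P y := (BM.const (2 * p)).mul (bmav hP)
    have b2 : BM fun y => (1 - x) * p ^ 2 * avm m k S σ y ^ 2 :=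
      (BM.const ((1 - x) * p ^ 2)).mul bσ2
    rw [cx_sub hw b1 ((BM.const (p ^ 2)).add b2), cx_add hw (BM.const (p ^ 2)) b2,
      cx_const_mul hw, cx_const_mul hw, hp,
      cx_dep hw (Q := fun _ => p ^ 2) (fun _ _ => rfl)]
    ring
  have hce : cx (gg ι) K (Zxm m k S x) e z ≤ 2 * cx (gg ι) K (Zxm m k S x) r z
      + 2 * |p| * Real.sqrt (cx (gg ι) K (Zxm m k S x) r z) := by
    simp only [he]
    rw [cx_add hw ((BM.const 2).mul br) ((BM.const (2 * |p|)).mul bsr), cx_const_mul hw,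
      cx_const_mul hw]
    have h1 := cx_sqrt_le (K := K) hG k x br hr0 z
    have h2 : 0 ≤ 2 * |p| := by positivity
    nlinarith
  rw [← hcg]
  have h6 := cx_sub hw (K := K) bq bg z
  rw [← h6]
  refine abs_le.2 ⟨?_, ?_⟩
  · have h7 := cx_mono hw (K := K) (BM.mul (BM.const (-1)) be) (bq.sub bg)
      (fun y => by have := (abs_le.1 (hpt y)).1; linarith) z
    rw [cx_const_mul hw] at h7
    linarith
  · have h7 := cx_mono hw (K := K) (bq.sub bg) be (fun y => (abs_le.1 (hpt y)).2) z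
    linarith

end gibbs

end Vale.Agent.P146.H161
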