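import Vale.Agent.P146.H161.DvU
import Vale.Agent.P146.H646.DvU

/-!
# The squared norm of the defect `Va` in the letters of `H646.PVU`
-/

open MeasureTheory ProbabilityTheory Filter

namespace Vale.Agent.P146.H161.L2

open Vale.Agent.P157.Lv hiding Dep
open Vale.Agent.P146.H196 Vale.Agent.P146.H646 Vale.Agent.P146.H347 Vale.Agent.P146.H325
  Vale.Agent.P146.H420B
open Vale.Agent.P146.H475 Vale.Agent.P146.H816 Vale.Agent.P146.H347.U Vale.Agent.P146.H281.U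

variable {G : Type} [Fintype G] [DecidableEq G] {n : ℕ} {LB LF : Type} [Fintype LB]
  [DecidableEq LB] [Fintype LF] [DecidableEq LF] {b : ℝ} {cB : LB → ℝ} {cF : LF → ℝ}
  {a : LF → (G → ℝ) → ℝ} {lam c : G → ℝ} {η x : ℝ} {g0 : G} {Lm : Finset LF}

/-- `pv_U` ending at `H646.PVU`. -/
theorem pvU (h : ∀ g, 0 < lam g) (hA : AmU a η) (hM : Mods a η g0 Lm) (hx0 : 0 ≤ x)
    (hx : x < 1) (hn : 0 < n) {r0 : ℝ}
    (hc : c g0 = (∑ l ∈ Lm, cF l ^ 2) * n * (1 - (1 - x) * r0)) (BL : Finset LB)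
    (FL : Finset LF) (S : Finset (Fin n)) (hv : 0 < ∑ l ∈ Lm.filter (· ∉ FL), cF l ^ 2)
    {B p : ℝ} (hB : 0 ≤ B)
    (hp : exU n (nuG lam η c) b cB cF a x (H317.ind (B ^ 2) (fun z => ∑ j ∈ S, ∑ l ∈ S,
      cxU n (nuG lam η c) b cB cF a x (Kset S BL FL)
        (avU n (nuG lam η c) b cB cF a (fun w => sp w.2 j * sp w.2 l)) z ^ 2)) ≤ p) :
    (1 - x) ^ 2 * H646.PVU n (nuG lam η c) b cB cF a x r0 (Kset S BL FL)
        (fun θ => al η (θ g0)) S ≤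
      errV η r0 (lam g0 / ((∑ l ∈ Lm, cF l ^ 2) * n))
        ((∑ l ∈ Lm.filter (· ∈ FL), cF l ^ 2) /
          ((∑ l ∈ Lm.filter (· ∉ FL), cF l ^ 2) * ((∑ l ∈ Lm, cF l ^ 2) * n)))
        S.card B (R2U n (nuG lam η c) b cB cF a x (Kset S BL FL) S)
        (stk n (nuG lam η c) b cB cF a η x g0) p :=
  pv_U h hA hM hx0 hx hn hc BL FL S hv hB hp

/-- the error number at canonical sizes: `gg √√R2 ≤ e1`, `st ≤ st0`, and so on. -/
lemma errV_mono {η r0 gg gg' rho rho' m m' B B' R R' st st' p p' : ℝ} (hη : 0 ≤ η) (h1 : 0 ≤ gg)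
    (h1' : gg ≤ gg') (h2 : 0 ≤ rho) (h2' : rho ≤ rho') (h3 : 0 ≤ m) (h3' : m ≤ m')
    (h4 : 0 ≤ B) (h4' : B ≤ B') (h5 : R ≤ R') (h6 : 0 ≤ st) (h6' : st ≤ st') (h7 : p ≤ p') :
    errV η r0 gg rho m B R st p ≤ errV η r0 gg' rho' m' B' R' st' p' := by
  have hV : 0 ≤ (|r0| + 1) * (1 + η) := mul_nonneg (by positivity) (by linarith)
  have hst' : 0 ≤ st' := h6.trans h6'
  have hm' : 0 ≤ m' := h3.trans h3'
  have a1 : √√R ≤ √√R' := Real.sqrt_le_sqrt (Real.sqrt_le_sqrt h5)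
  have a2 : gg * √√R ≤ gg' * √√R' := mul_le_mul h1' a1 (Real.sqrt_nonneg _) (h1.trans h1')
  have a3 : √(m * ((|r0| + 1) * (1 + η)) ^ 2 * st) ≤ √(m' * ((|r0| + 1) * (1 + η)) ^ 2 * st') :=
    Real.sqrt_le_sqrt (mul_le_mul (mul_le_mul_of_nonneg_right h3' (sq_nonneg _)) h6' h6
      (mul_nonneg hm' (sq_nonneg _)))
  have a4 : (gg * √√R + √(m * ((|r0| + 1) * (1 + η)) ^ 2 * st)) ^ 2 ≤
      (gg' * √√R' + √(m' * ((|r0| + 1) * (1 + η)) ^ 2 * st')) ^ 2 :=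
    pow_le_pow_left₀ (add_nonneg (mul_nonneg h1 (Real.sqrt_nonneg _)) (Real.sqrt_nonneg _))
      (add_le_add a2 a3) 2
  have a5 : rho * B ≤ rho' * B' := mul_le_mul h2' h4' h4 (h2.trans h2')
  have a6 : √rho ≤ √rho' := Real.sqrt_le_sqrt h2'
  have a7 : m * ((|r0| + 1) * (1 + η)) * √p ≤ m' * ((|r0| + 1) * (1 + η)) * √p' :=
    mul_le_mul (mul_le_mul_of_nonneg_right h3' hV) (Real.sqrt_le_sqrt h7) (Real.sqrt_nonneg _)
      (mul_nonneg hm' hV)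
  have a8 : √rho * (m * ((|r0| + 1) * (1 + η)) * √p) ≤
      √rho' * (m' * ((|r0| + 1) * (1 + η)) * √p') :=
    mul_le_mul a6 a7 (mul_nonneg (mul_nonneg h3 hV) (Real.sqrt_nonneg _)) (Real.sqrt_nonneg _)
  unfold errV
  nlinarith

/-- the size of the error number -/
lemma errV_le {η r0 gg rho m B R st p e1 e2 : ℝ} (h0 : 0 ≤ gg) (h1 : gg * √√R ≤ e1)
    (h2 : √(m * ((|r0| + 1) * (1 + η)) ^ 2 * st) ≤ e2) :
    errV η r0 gg rho m B R st p ≤ 4 * e1 ^ 2 + 4 * e2 ^ 2 + 2 * rho * B +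
      2 * √rho * (m * ((|r0| + 1) * (1 + η)) * √p) := by
  have a1 : 0 ≤ gg * √√R := mul_nonneg h0 (Real.sqrt_nonneg _)
  have a2 : 0 ≤ √(m * ((|r0| + 1) * (1 + η)) ^ 2 * st) := Real.sqrt_nonneg _
  have a3 : (gg * √√R + √(m * ((|r0| + 1) * (1 + η)) ^ 2 * st)) ^ 2 ≤ (e1 + e2) ^ 2 :=
    pow_le_pow_left₀ (add_nonneg a1 a2) (add_le_add h1 h2) 2
  unfold errV
  nlinarith [sq_nonneg (e1 - e2)]

end Vale.Agent.P146.H161.L2
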