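import Vale.Agent.P146.H161.GgrL2
import Vale.Agent.P146.H317.C3Abs
import Vale.Agent.P146.H646.DU

/-!
# The squared norm of the defect `Va` when part of the modulated field is revealed

* `pv_le` (generic): `P = ∑ j ex (cx K (Va j))^2` is at most
  `2 (θ √√R2 + stuck)^2 + 2 e0^2 B + 2 e0 #J V0 √p`, `e0^2 = vr / ((1-x)^2 vh v n)`, where `p`
  bounds the probability of `{∑ j l (cx K ⟨τ j τ l⟩)^2 > B^2}`.
* `pv_U`: the same in the ensemble `U`.
* `dv_U`: `∑ j ∈ S, ex (cx K (Th j) - kp M j)^2`.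
-/

open MeasureTheory ProbabilityTheory Filter

namespace Vale.Agent.P146.H161.L2

open Vale.Agent.P157.Lv hiding Dep
open Vale.Agent.P146.H196 Vale.Agent.P146.H646 Vale.Agent.P146.H347 Vale.Agent.P146.H325
  Vale.Agent.P146.H420B

set_option linter.unusedSectionVars false

/-- solving the quadratic inequality -/
lemma quad_le {P g h : ℝ} (hP : 0 ≤ P) (h1 : P ≤ g * √P + h) : P ≤ g ^ 2 + 2 * h := by
  have h2 := Real.sq_sqrt hP
  nlinarith [sq_nonneg (g - √P)]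

lemma sqrt_add_le' {u v : ℝ} (hu : 0 ≤ u) (hv : 0 ≤ v) : √(u + v) ≤ √u + √v := by
  have h1 := Real.sq_sqrt hu
  have h2 := Real.sq_sqrt hv
  have h3 := mul_nonneg (Real.sqrt_nonneg u) (Real.sqrt_nonneg v)
  refine Real.sqrt_le_iff.2 ⟨add_nonneg (Real.sqrt_nonneg _) (Real.sqrt_nonneg _), ?_⟩
  nlinarith

section gen

variable {ι s L J : Type} [Fintype ι] [DecidableEq ι] [Fintype s] [DecidableEq s] [Fintype L]
  [DecidableEq L] [Fintype J] [DecidableEq J]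
  {Ω : Type} [MeasurableSpace Ω] {μ : Measure Ω} {S : ι → Ω → ℝ} {M0 x : ℝ}
  {md : s → L → ι} {cG : L → ℝ} {σ : s → Ω → ℝ} {a I sg : Ω → ℝ} {lam c r0 η : ℝ}
  {τ : J → Ω → ℝ} {Lr : Finset L}

/-- the defect is bounded -/
lemma abs_Va_le [Nonempty s] (hG : GM μ S M0) (hM : MS S md cG σ a I sg) (hη : 0 ≤ η)
    (ha : ∀ w, |a w| ≤ 1 + η) (bt : ∀ j, Bm (τ j)) (ht : ∀ j w, |τ j w| ≤ 1) (j : J)
    (z : ι → ℝ) : |Va μ 1 r0 S σ a τ j z| ≤ (|r0| + 1) * (1 + η) := by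
  have hn : (0 : ℝ) < Fintype.card s := by exact_mod_cast Fintype.card_pos
  have hs1 : ∀ i p, |σ i p| ≤ 1 := fun i p => by
    have := hM.s2 i p
    rw [← sq_abs] at this
    nlinarith [abs_nonneg (σ i p)]
  have h1 : |avm μ 1 S (fun w => a w * τ j w) z| ≤ 1 + η := by
    refine hG.abs_av_le (h := fun w => a w * τ j w) 1 (hM.ba.mul (bt j)).1 (fun w => ?_) z
    rw [abs_mul]
    calc |a w| * |τ j w| ≤ (1 + η) * 1 := mul_le_mul (ha w) (ht j w) (abs_nonneg _) (by linarith)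
      _ = _ := mul_one _
  have h2 : ∀ i, |avm μ 1 S (fun w => a w * σ i w) z| ≤ 1 + η := by
    intro i
    refine hG.abs_av_le (h := fun w => a w * σ i w) 1 (hM.ba.mul (hM.bs i)).1 (fun w => ?_) z
    rw [abs_mul]
    calc |a w| * |σ i w| ≤ (1 + η) * 1 := mul_le_mul (ha w) (hs1 i w) (abs_nonneg _) (by linarith)
      _ = _ := mul_one _
  have h3 : ∀ i, |avm μ 1 S (fun w => σ i w * τ j w) z| ≤ 1 := by
    intro i
    refine hG.abs_av_le (h := fun w => σ i w * τ j w) 1 ((hM.bs i).mul (bt j)).1 (fun w => ?_) z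
    rw [abs_mul]
    calc |σ i w| * |τ j w| ≤ 1 * 1 := mul_le_mul (hs1 i w) (ht j w) (abs_nonneg _) zero_le_one
      _ = _ := mul_one _
  unfold Va
  have h4 : |(Fintype.card s : ℝ)⁻¹ * ∑ i, avm μ 1 S (fun w => a w * σ i w) z *
      avm μ 1 S (fun w => σ i w * τ j w) z| ≤ 1 + η := by
    rw [abs_mul, abs_of_nonneg (by positivity : (0 : ℝ) ≤ (Fintype.card s : ℝ)⁻¹),
      inv_mul_le_iff₀ hn]
    refine (Finset.abs_sum_le_sum_abs _ _).trans ((Finset.sum_le_sum fun i _ => ?_).trans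
      (le_of_eq (a := ∑ _i : s, (1 + η)) ?_))
    · rw [abs_mul]
      calc _ ≤ (1 + η) * 1 := mul_le_mul (h2 i) (h3 i) (abs_nonneg _) (by linarith)
        _ = _ := mul_one _
    · rw [Finset.sum_const, Finset.card_univ, nsmul_eq_mul]
  refine (abs_sub _ _).trans ?_
  rw [abs_mul]
  have h5 := mul_le_mul_of_nonneg_left h1 (abs_nonneg r0)
  linarith

/-- the double sum with the bond covariances -/
theorem qcq_le (hG : GM μ S M0) (bt : ∀ j, Bm (τ j)) (ht : ∀ j w, |τ j w| ≤ 1) {K : Finset ι}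
    {Q : J → (ι → ℝ) → ℝ} (hQ : ∀ j, BM (Q j)) (dQ : ∀ j, H646.Dep K (Q j)) {V0 : ℝ}
    (hV : ∀ j z, |Q j z| ≤ V0) {B p : ℝ} (hB : 0 ≤ B)
    (hp : ex (g1 ι) (Zxm μ 1 S x) (H317.ind (B ^ 2) (fun z => ∑ j, ∑ l,
      cx (g1 ι) K (Zxm μ 1 S x) (avm μ 1 S (fun w => τ j w * τ l w)) z ^ 2)) ≤ p) :
    ∑ j, ∑ l, ex (g1 ι) (Zxm μ 1 S x)
        (fun z => Q j z * Q l z * avm μ 1 S (fun w => τ j w * τ l w) z) ≤
      B * (∑ j, ex (g1 ι) (Zxm μ 1 S x) (fun z => Q j z ^ 2)) +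
        (Fintype.card J * V0) ^ 2 * p := by
  have hw := H347.wt hG 1 x
  set w := Zxm μ 1 S x with hwd
  set C : J → J → (ι → ℝ) → ℝ := fun j l =>
    cx (g1 ι) K w (avm μ 1 S (fun w => τ j w * τ l w)) with hC
  set N2 : (ι → ℝ) → ℝ := fun z => ∑ j, ∑ l, C j l z ^ 2 with hN2
  have bT : ∀ j l, BM (avm μ 1 S (fun w => τ j w * τ l w)) := fun j l =>
    H347.bm hG 1 ((bt j).mul (bt l))
  have bC : ∀ j l, BM (C j l) := fun j l => hw.bm_cx K (bT j l)
  have bN2 : BM N2 := BM.sum _ fun j _ => BM.sum _ fun l _ => (bC j l).sq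
  have hC1 : ∀ j l z, |C j l z| ≤ 1 := fun j l z => by
    refine hw.abs_cx_le K (bT j l) (fun z => ?_) z
    refine hG.abs_av_le (h := fun w => τ j w * τ l w) 1 ((bt j).mul (bt l)).1 (fun w => ?_) z
    rw [abs_mul]
    calc |τ j w| * |τ l w| ≤ 1 * 1 := mul_le_mul (ht j w) (ht l w) (abs_nonneg _) zero_le_one
      _ = _ := mul_one _
  have e1 : ∀ j l, ex (g1 ι) w (fun z => Q j z * Q l z * avm μ 1 S (fun w => τ j w * τ l w) z)
      = ex (g1 ι) w (fun z => Q j z * Q l z * C j l z) := fun j l =>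
    (ex_cx hw (fun z z' => by
      show Q j (glue K z z') * Q l (glue K z z') = Q j z * Q l z
      rw [dQ j z z', dQ l z z']) ((hQ j).mul (hQ l)) (bT j l)).symm
  have bQC : ∀ j l, BM (fun z => Q j z * Q l z * C j l z) := fun j l =>
    ((hQ j).mul (hQ l)).mul (bC j l)
  have e2 : ∑ j, ∑ l, ex (g1 ι) w
      (fun z => Q j z * Q l z * avm μ 1 S (fun w => τ j w * τ l w) z) =
      ex (g1 ι) w (fun z => ∑ j, ∑ l, Q j z * Q l z * C j l z) := by
    rw [hw.ex_sum Finset.univ fun j _ => BM.sum _ fun l _ => bQC j l]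
    refine Finset.sum_congr rfl fun j _ => ?_
    rw [hw.ex_sum Finset.univ fun l _ => bQC j l]
    exact Finset.sum_congr rfl fun l _ => e1 j l
  rw [e2]
  have b1 : BM (fun z => B * ∑ j, Q j z ^ 2) := (BM.const B).mul (BM.sum _ fun j _ => (hQ j).sq)
  have b2 : BM (H317.ind (B ^ 2) N2) := H317.bm_ind bN2.meas _
  have b3 : BM (fun z => (Fintype.card J * V0) ^ 2 * H317.ind (B ^ 2) N2 z) := (BM.const _).mul b2
  have hpt : ∀ z, ∑ j, ∑ l, Q j z * Q l z * C j l z ≤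
      B * (∑ j, Q j z ^ 2) + (Fintype.card J * V0) ^ 2 * H317.ind (B ^ 2) N2 z := by
    intro z
    -- Cauchy-Schwarz for the double sum
    have c0 : (∑ j, ∑ l, Q j z * Q l z * C j l z) ^ 2 ≤ (∑ j, Q j z ^ 2) ^ 2 * N2 z := by
      have c1 := Finset.sum_mul_sq_le_sq_mul_sq (Finset.univ (α := J × J))
        (fun q => Q q.1 z * Q q.2 z) (fun q => C q.1 q.2 z)
      rw [Fintype.sum_prod_type, Fintype.sum_prod_type, Fintype.sum_prod_type] at c1
      have c2 : ∑ j, ∑ l, (Q j z * Q l z) ^ 2 = (∑ j, Q j z ^ 2) ^ 2 := by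
        rw [sq (∑ j, Q j z ^ 2), Finset.sum_mul_sum]
        exact Finset.sum_congr rfl fun j _ => Finset.sum_congr rfl fun l _ => mul_pow _ _ _
      rw [c2] at c1
      exact c1
    have hq0 : 0 ≤ ∑ j, Q j z ^ 2 := Finset.sum_nonneg fun _ _ => sq_nonneg _
    unfold H317.ind
    by_cases hz : B ^ 2 < N2 z
    · rw [if_pos hz, mul_one]
      have c3 : ∑ j, Q j z ^ 2 ≤ Fintype.card J * V0 ^ 2 := by
        refine (Finset.sum_le_sum fun j _ => ?_).trans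
          (le_of_eq (a := ∑ _j : J, V0 ^ 2) ?_)
        · rw [← sq_abs]
          exact pow_le_pow_left₀ (abs_nonneg _) (hV j z) 2
        · rw [Finset.sum_const, Finset.card_univ, nsmul_eq_mul]
      have c4 : N2 z ≤ (Fintype.card J : ℝ) ^ 2 := by
        refine (Finset.sum_le_sum fun j _ => Finset.sum_le_sum fun l _ => ?_).trans
          (le_of_eq (a := ∑ _j : J, ∑ _l : J, (1 : ℝ)) ?_)
        · rw [← sq_abs]
          have := hC1 j l z
          have h0 := abs_nonneg (C j l z)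
          nlinarith
        · rw [Finset.sum_const, Finset.sum_const, Finset.card_univ, nsmul_eq_mul, nsmul_eq_mul]
          ring
      have c5 : (∑ j, ∑ l, Q j z * Q l z * C j l z) ^ 2 ≤ ((Fintype.card J * V0) ^ 2) ^ 2 := by
        refine c0.trans ?_
        calc (∑ j, Q j z ^ 2) ^ 2 * N2 z ≤
              (Fintype.card J * V0 ^ 2) ^ 2 * (Fintype.card J : ℝ) ^ 2 :=
              mul_le_mul (pow_le_pow_left₀ hq0 c3 2) c4
                (Finset.sum_nonneg fun _ _ => Finset.sum_nonneg fun _ _ => sq_nonneg _)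
                (sq_nonneg _)
          _ = _ := by ring
      have c6 := abs_le_of_sq_le_sq c5 (sq_nonneg _)
      have c7 := mul_nonneg hB hq0
      linarith [(abs_le.1 c6).2]
    · rw [if_neg hz, mul_zero, add_zero]
      have c5 : (∑ j, ∑ l, Q j z * Q l z * C j l z) ^ 2 ≤ (B * ∑ j, Q j z ^ 2) ^ 2 := by
        refine c0.trans ?_
        rw [mul_pow, mul_comm]
        exact mul_le_mul_of_nonneg_right (not_lt.1 hz) (sq_nonneg _)
      have c6 := abs_le_of_sq_le_sq c5 (mul_nonneg hB hq0)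
      exact (abs_le.1 c6).2
  refine (hw.ex_mono (BM.sum _ fun j _ => BM.sum _ fun l _ => bQC j l) (b1.add b3) hpt).trans ?_
  rw [hw.ex_add b1 b3, hw.ex_const_mul, hw.ex_const_mul,
    hw.ex_sum Finset.univ fun j _ => (hQ j).sq]
  have := mul_le_mul_of_nonneg_left hp (sq_nonneg (Fintype.card J * V0))
  linarith

/-- **the squared norm of the defect** -/
theorem pv_le [Nonempty s] (hG : GM μ S M0) (hM : MS S md cG σ a I sg) (hv : 0 < vh cG Lr)
    (hx : x < 1) (hlam : 0 ≤ lam) (hη : 0 ≤ η) (ha : ∀ w, |a w| ≤ 1 + η) (bt : ∀ j, Bm (τ j))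
    (ht : ∀ j w, |τ j w| ≤ 1) (hT : ∀ j, AIbp μ S md cG σ a I sg lam c (τ j))
    (hc : c = vG cG * Fintype.card s * (1 - (1 - x) * r0))
    (hmd : ∀ i l i' l', md i l = md i' l' → i = i' ∧ l = l') {K : Finset ι}
    (hK : ∀ i l, l ∉ Lr → md i l ∉ K) {B p : ℝ} (hB : 0 ≤ B)
    (hp : ex (g1 ι) (Zxm μ 1 S x) (H317.ind (B ^ 2) (fun z => ∑ j, ∑ l,
      cx (g1 ι) K (Zxm μ 1 S x) (avm μ 1 S (fun w => τ j w * τ l w)) z ^ 2)) ≤ p) :
    ∑ j, ex (g1 ι) (Zxm μ 1 S x) (fun z =>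
        cx (g1 ι) K (Zxm μ 1 S x) (Va μ 1 r0 S σ a τ j) z ^ 2) ≤
      2 * (lam / ((1 - x) * (vG cG * Fintype.card s)) * √(√(∑ j, ∑ l, ex (g1 ι) (Zxm μ 1 S x)
            (fun z => cx (g1 ι) K (Zxm μ 1 S x) (avm μ 1 S (fun w => τ j w * τ l w)) z ^ 2)))
          + √(Fintype.card J * ((|r0| + 1) * (1 + η)) ^ 2 *
            ex (g1 ι) (Zxm μ 1 S x) (avm μ 1 S (fun w => 1 - I w)))) ^ 2
        + 2 * (vr cG Lr / ((1 - x) ^ 2 * (vh cG Lr * (vG cG * Fintype.card s)))) * B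
        + 2 * (1 / (1 - x) * √(vr cG Lr / (vh cG Lr * (vG cG * Fintype.card s)))) *
          (Fintype.card J * ((|r0| + 1) * (1 + η)) * √p) := by
  have hw := H347.wt hG 1 x
  have hx1 : 0 < 1 - x := by linarith
  have hn : (0 : ℝ) < Fintype.card s := by exact_mod_cast Fintype.card_pos
  have hvr := vr_nn (cG := cG) (Lr := Lr)
  have hvG : 0 < vG cG := by rw [← vr_add_vh (Lr := Lr)]; linarith
  have bV : ∀ j, BM (Va μ 1 r0 S σ a τ j) := by
    intro j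
    have e0 : Va μ 1 r0 S σ a τ j = fun z => ViG r0 μ S σ a I (τ j) z +
        ViG r0 μ S σ a (fun w => 1 - I w) (τ j) z := by
      funext z
      exact Va_split hG hM.ba hM.bs hM.bI bt j z
    rw [e0]
    exact (bm_ViG hG hM.ba hM.bs hM.bI (bt j)).add
      (bm_ViG hG hM.ba hM.bs ((Bm.const 1).sub hM.bI) (bt j))
  have bQ : ∀ j, BM (cx (g1 ι) K (Zxm μ 1 S x) (Va μ 1 r0 S σ a τ j)) := fun j =>
    hw.bm_cx K (bV j)
  have dQ : ∀ j, H646.Dep K (cx (g1 ι) K (Zxm μ 1 S x) (Va μ 1 r0 S σ a τ j)) := fun j =>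
    dep_cx K
  have h1 := ggr_l2 hG hM hv hx hlam hη ha bt ht hT hc hmd hK bQ dQ
  set V0 := (|r0| + 1) * (1 + η) with hV0
  have hV0n : 0 ≤ V0 := mul_nonneg (by positivity) (by linarith)
  have h2 := qcq_le (V0 := V0) hG bt ht bQ dQ (fun j z => hw.abs_cx_le K (bV j)
    (fun z => abs_Va_le hG hM hη ha bt ht j z) z) hB hp
  simp only [← sq] at h1
  set P := ∑ j, ex (g1 ι) (Zxm μ 1 S x) (fun z =>
        cx (g1 ι) K (Zxm μ 1 S x) (Va μ 1 r0 S σ a τ j) z ^ 2) with hP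
  have hP0 : 0 ≤ P := Finset.sum_nonneg fun j _ => hw.ex_nonneg (bQ j).sq fun z => sq_nonneg _
  have hp0 : 0 ≤ p := (hw.ex_nonneg (H317.bm_ind (BM.sum _ fun j _ => BM.sum _ fun l _ =>
    (hw.bm_cx K (H347.bm hG 1 ((bt j).mul (bt l)))).sq).meas _)
      (H317.ind_nonneg _ _)).trans hp
  rw [abs_of_nonneg hP0] at h1
  set α := lam / ((1 - x) * (vG cG * Fintype.card s)) * √(√(∑ j, ∑ l, ex (g1 ι) (Zxm μ 1 S x)
            (fun z => cx (g1 ι) K (Zxm μ 1 S x) (avm μ 1 S (fun w => τ j w * τ l w)) z ^ 2)))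
          + √(Fintype.card J * V0 ^ 2 *
            ex (g1 ι) (Zxm μ 1 S x) (avm μ 1 S (fun w => 1 - I w))) with hα
  have he : (1 / (1 - x) * √(vr cG Lr / (vh cG Lr * (vG cG * Fintype.card s)))) ^ 2 =
      vr cG Lr / ((1 - x) ^ 2 * (vh cG Lr * (vG cG * Fintype.card s))) := by
    rw [mul_pow, Real.sq_sqrt (by positivity)]
    field_simp
  rw [← he]
  set e0 := 1 / (1 - x) * √(vr cG Lr / (vh cG Lr * (vG cG * Fintype.card s))) with he0
  have he0n : 0 ≤ e0 := by positivity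
  have h3 : √(∑ j, ∑ l, ex (g1 ι) (Zxm μ 1 S x)
        (fun z => cx (g1 ι) K (Zxm μ 1 S x) (Va μ 1 r0 S σ a τ j) z *
          cx (g1 ι) K (Zxm μ 1 S x) (Va μ 1 r0 S σ a τ l) z *
            avm μ 1 S (fun w => τ j w * τ l w) z)) ≤ √B * √P + Fintype.card J * V0 * √p := by
    refine (Real.sqrt_le_sqrt h2).trans ?_
    refine (sqrt_add_le' (mul_nonneg hB hP0) (by positivity)).trans ?_
    rw [Real.sqrt_mul hB, Real.sqrt_mul (sq_nonneg _), Real.sqrt_sq (by positivity)]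
  have h4 : P ≤ (α + e0 * √B) * √P + e0 * (Fintype.card J * V0 * √p) := by
    have := mul_le_mul_of_nonneg_left h3 he0n
    linarith
  have h5 := quad_le hP0 h4
  have hB2 := Real.sq_sqrt hB
  have h6 : (α + e0 * √B) ^ 2 ≤ 2 * α ^ 2 + 2 * e0 ^ 2 * B := by
    nlinarith [sq_nonneg (α - e0 * √B)]
  linarith

end gen

section U

open Vale.Agent.P146.H475 Vale.Agent.P146.H816 Vale.Agent.P146.H347.U Vale.Agent.P146.H281.U

variable {G : Type} [Fintype G] [DecidableEq G] {n : ℕ} {LB LF : Type} [Fintype LB]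
  [DecidableEq LB] [Fintype LF] [DecidableEq LF] {b : ℝ} {cB : LB → ℝ} {cF : LF → ℝ}
  {a : LF → (G → ℝ) → ℝ} {lam c : G → ℝ} {η x : ℝ} {g0 : G} {Lm : Finset LF}

/-- the squared norm of the conditional mean of the defect -/
noncomputable def PVU (n : ℕ) (ν : Measure (G → ℝ)) (b : ℝ) (cB : LB → ℝ) (cF : LF → ℝ)
    (a : LF → (G → ℝ) → ℝ) (η x r0 : ℝ) (g0 : G) (K : Finset (Co n LB LF))
    (S : Finset (Fin n)) : ℝ :=
  ∑ j ∈ S, exU n ν b cB cF a x (fun z => cxU n ν b cB cF a x K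
    (Va (muU ν n) 1 r0 (SU b cB cF a) (fun (i : Fin n) w => sp w.2 i) (fun w => al η (w.1 g0))
      (fun (j : Fin n) w => sp w.2 j) j) z ^ 2)

/-- the error number of the squared norm of the defect, times `(1-x)^2` -/
noncomputable def errV (η r0 gg rho m B R2S st p : ℝ) : ℝ :=
  2 * (gg * √√R2S + √(m * ((|r0| + 1) * (1 + η)) ^ 2 * st)) ^ 2 + 2 * rho * B +
    2 * √rho * (m * ((|r0| + 1) * (1 + η)) * √p)

lemma errV_scale {y l D q1 q2 v1 v2 B W : ℝ} (hy : 0 < y) (hy1 : y ≤ 1) (hD : 0 < D)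
    (hl : 0 ≤ l) (hq1 : 0 ≤ q1) (hq2 : 0 ≤ q2) (hv2 : v2 ≠ 0) (hW : 0 ≤ W) :
    y ^ 2 * (2 * (l / (y * D) * q1 + q2) ^ 2 + 2 * (v1 / (y ^ 2 * (v2 * D))) * B +
      2 * (1 / y * √(v1 / (v2 * D))) * W) ≤
    2 * (l / D * q1 + q2) ^ 2 + 2 * (v1 / (v2 * D)) * B + 2 * √(v1 / (v2 * D)) * W := by
  have f1 : y * (l / (y * D) * q1 + q2) ≤ l / D * q1 + q2 := by
    have f2 : y * (l / (y * D) * q1) = l / D * q1 := by
      field_simp
    rw [mul_add, f2]
    have := mul_le_of_le_one_left hq2 hy1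
    linarith
  have f3 : 0 ≤ y * (l / (y * D) * q1 + q2) := by positivity
  have f4 : y ^ 2 * (2 * (l / (y * D) * q1 + q2) ^ 2) ≤ 2 * (l / D * q1 + q2) ^ 2 := by
    have := pow_le_pow_left₀ f3 f1 2
    rw [mul_pow] at this
    linarith
  have f5 : y ^ 2 * (2 * (v1 / (y ^ 2 * (v2 * D))) * B) = 2 * (v1 / (v2 * D)) * B := by
    field_simp
  set z := √(v1 / (v2 * D))
  have hz : 0 ≤ z := Real.sqrt_nonneg _
  have f6 : y ^ 2 * (2 * (1 / y * z) * W) ≤ 2 * z * W := by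
    have f7 : y ^ 2 * (2 * (1 / y * z) * W) = y * (2 * z * W) := by
      field_simp
    rw [f7]
    exact mul_le_of_le_one_left (by positivity) hy1
  rw [mul_add, mul_add]
  linarith

/-- **the squared norm of the defect in the ensemble `U`, modulated levels revealed.** -/
theorem pv_U (h : ∀ g, 0 < lam g) (hA : AmU a η) (hM : Mods a η g0 Lm) (hx0 : 0 ≤ x)
    (hx : x < 1) (hn : 0 < n) {r0 : ℝ}
    (hc : c g0 = (∑ l ∈ Lm, cF l ^ 2) * n * (1 - (1 - x) * r0)) (BL : Finset LB)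
    (FL : Finset LF) (S : Finset (Fin n)) (hv : 0 < ∑ l ∈ Lm.filter (· ∉ FL), cF l ^ 2)
    {B p : ℝ} (hB : 0 ≤ B)
    (hp : exU n (nuG lam η c) b cB cF a x (H317.ind (B ^ 2) (fun z => ∑ j ∈ S, ∑ l ∈ S,
      cxU n (nuG lam η c) b cB cF a x (Kset S BL FL)
        (avU n (nuG lam η c) b cB cF a (fun w => sp w.2 j * sp w.2 l)) z ^ 2)) ≤ p) :
    (1 - x) ^ 2 * PVU n (nuG lam η c) b cB cF a η x r0 g0 (Kset S BL FL) S ≤
      errV η r0 (lam g0 / ((∑ l ∈ Lm, cF l ^ 2) * n))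
        ((∑ l ∈ Lm.filter (· ∈ FL), cF l ^ 2) /
          ((∑ l ∈ Lm.filter (· ∉ FL), cF l ^ 2) * ((∑ l ∈ Lm, cF l ^ 2) * n)))
        S.card B (R2U n (nuG lam η c) b cB cF a x (Kset S BL FL) S)
        (stk n (nuG lam η c) b cB cF a η x g0) p := by
  classical
  have hη := hA.nn
  have hν := finite_nuG h hη c
  have h0 := nuG_ne h hη c
  have hG := gmU (n := n) b cB cF η hν h0 hA
  have : Nonempty (Fin n) := ⟨⟨0, hn⟩⟩
  have hn' : (0 : ℝ) < n := by exact_mod_cast hn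
  have hra : ∀ θ : G → ℝ, |al η (θ g0)| ≤ 1 + η := fun θ => by
    have h1 := al_mem hη (θ g0)
    rw [abs_le]; constructor <;> linarith [h1.1, h1.2]
  have bt : ∀ j : {j // j ∈ S}, Bm fun w : (G → ℝ) × Xs n => sp w.2 j.1 := fun j =>
    H347.U.bm_spU j.1
  have ht1 : ∀ (j : {j // j ∈ S}) (w : (G → ℝ) × Xs n), |sp w.2 j.1| ≤ 1 := fun j w =>
    (abs_one_sp w.2 j.1).le
  have hms : H420B.MS (SU b cB cF a : Co n LB LF → (G → ℝ) × Xs n → ℝ)
      (fun (i : Fin n) (l : {l // l ∈ Lm}) => fd LB i l.1) (fun l => cF l.1)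
      (fun i w => sp w.2 i) (fun w => al η (w.1 g0)) (fun w => ins η (w.1 g0))
      (fun w => sg (w.1 g0)) := ms_U hη hM
  have hvG : H420B.vG (fun l : {l // l ∈ Lm} => cF l.1) = ∑ l ∈ Lm, cF l ^ 2 := vG_U
  set Lr : Finset {l // l ∈ Lm} := Finset.univ.filter fun l => l.1 ∈ FL with hLr
  have hK : ∀ (i : Fin n) (l : {l // l ∈ Lm}), l ∉ Lr → fd LB i l.1 ∉ Kset S BL FL := by
    intro i l hl h1
    rw [fd_memK] at h1
    exact hl (Finset.mem_filter.2 ⟨Finset.mem_univ _, h1.2⟩)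
  have hmd : ∀ (i : Fin n) (l : {l // l ∈ Lm}) (i' : Fin n) (l' : {l // l ∈ Lm}),
      fd LB i l.1 = fd LB i' l'.1 → i = i' ∧ l = l' := by
    intro i l i' l' h1
    have h2 := Sum.inr_injective (Sum.inl_injective h1)
    rw [Prod.mk.injEq] at h2
    exact ⟨h2.1, Subtype.ext h2.2⟩
  have hvr : vr (fun l : {l // l ∈ Lm} => cF l.1) Lr = ∑ l ∈ Lm.filter (· ∈ FL), cF l ^ 2 := by
    unfold vr
    rw [hLr, Finset.sum_filter, Finset.sum_filter]
    exact Finset.sum_coe_sort Lm fun l => if l ∈ FL then cF l ^ 2 else 0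
  have hvh : vh (fun l : {l // l ∈ Lm} => cF l.1) Lr = ∑ l ∈ Lm.filter (· ∉ FL), cF l ^ 2 := by
    unfold vh
    have h1 : Lrᶜ = Finset.univ.filter fun l : {l // l ∈ Lm} => l.1 ∉ FL := by
      ext l; simp [hLr]
    rw [h1, Finset.sum_filter, Finset.sum_filter]
    exact Finset.sum_coe_sort Lm fun l => if l ∉ FL then cF l ^ 2 else 0
  have hsumS : ∀ f : Fin n → ℝ, ∑ j : {j // j ∈ S}, f j.1 = ∑ j ∈ S, f j := fun f =>
    Finset.sum_coe_sort S f
  have e1 : (fun z : Co n LB LF → ℝ => ∑ j : {j // j ∈ S}, ∑ l : {l // l ∈ S},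
      cx (g1 _) (Kset S BL FL) (Zxm (muU (nuG lam η c) n) 1 (SU b cB cF a) x)
        (avm (muU (nuG lam η c) n) 1 (SU b cB cF a) (fun w => sp w.2 j.1 * sp w.2 l.1)) z ^ 2) =
      fun z => ∑ j ∈ S, ∑ l ∈ S,
      cxU n (nuG lam η c) b cB cF a x (Kset S BL FL)
        (avU n (nuG lam η c) b cB cF a (fun w => sp w.2 j * sp w.2 l)) z ^ 2 := by
    funext z
    rw [← hsumS]
    refine Finset.sum_congr rfl fun j _ => ?_
    exact hsumS fun l => cx (g1 _) (Kset S BL FL) (Zxm (muU (nuG lam η c) n) 1 (SU b cB cF a) x)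
        (avm (muU (nuG lam η c) n) 1 (SU b cB cF a) (fun w => sp w.2 j.1 * sp w.2 l)) z ^ 2
  have key := pv_le (x := x) (r0 := r0) (Lr := Lr) (σ := fun (i : Fin n) (w : (G → ℝ) × Xs n) =>
    sp w.2 i) (τ := fun (j : {j // j ∈ S}) (w : (G → ℝ) × Xs n) => sp w.2 j.1) (K := Kset S BL FL)
    (B := B) (p := p) hG hms
    (by rw [hvh]; exact hv) hx (h g0).le hη (fun w => hra w.1) bt ht1
    (fun j => aibp_U_sp h hA hM fun σ => sp σ j.1)
    (by rw [hvG, Fintype.card_fin]; exact hc) hmd hK hB (by rw [e1]; exact hp)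
  rw [hvr, hvh, hvG, Fintype.card_fin, Fintype.card_coe] at key
  have e2 : ∑ j : {j // j ∈ S}, ∑ l : {l // l ∈ S}, ex (g1 _)
      (Zxm (muU (nuG lam η c) n) 1 (SU b cB cF a : Co n LB LF → _) x) (fun z =>
      cx (g1 _) (Kset S BL FL) (Zxm (muU (nuG lam η c) n) 1 (SU b cB cF a) x)
        (avm (muU (nuG lam η c) n) 1 (SU b cB cF a) (fun w => sp w.2 j.1 * sp w.2 l.1)) z ^ 2) =
      R2U n (nuG lam η c) b cB cF a x (Kset S BL FL) S := by
    unfold R2U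
    rw [← hsumS]
    refine Finset.sum_congr rfl fun j _ => ?_
    exact hsumS fun l => ex (g1 _)
      (Zxm (muU (nuG lam η c) n) 1 (SU b cB cF a : Co n LB LF → _) x) (fun z =>
      cx (g1 _) (Kset S BL FL) (Zxm (muU (nuG lam η c) n) 1 (SU b cB cF a) x)
        (avm (muU (nuG lam η c) n) 1 (SU b cB cF a) (fun w => sp w.2 j.1 * sp w.2 l)) z ^ 2)
  rw [e2] at key
  have e3 : ∑ j : {j // j ∈ S}, ex (g1 _)
      (Zxm (muU (nuG lam η c) n) 1 (SU b cB cF a : Co n LB LF → _) x) (fun z =>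
      cx (g1 _) (Kset S BL FL) (Zxm (muU (nuG lam η c) n) 1 (SU b cB cF a) x)
        (Va (muU (nuG lam η c) n) 1 r0 (SU b cB cF a) (fun (i : Fin n) w => sp w.2 i)
          (fun w => al η (w.1 g0)) (fun (j : {j // j ∈ S}) w => sp w.2 j.1) j) z ^ 2) =
      PVU n (nuG lam η c) b cB cF a η x r0 g0 (Kset S BL FL) S := by
    unfold PVU
    rw [← hsumS]
    rfl
  rw [e3] at key
  have e4 : ex (g1 _) (Zxm (muU (nuG lam η c) n) 1 (SU b cB cF a : Co n LB LF → _) x)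
      (avm (muU (nuG lam η c) n) 1 (SU b cB cF a) (fun w => 1 - ins η (w.1 g0))) =
      stk n (nuG lam η c) b cB cF a η x g0 := rfl
  rw [e4] at key
  have hx1 : 0 < 1 - x := by linarith
  have hx2 : 1 - x ≤ 1 := by linarith
  have hs2 : 0 < ∑ l ∈ Lm, cF l ^ 2 := by
    have h1 := Finset.sum_filter_add_sum_filter_not Lm (· ∈ FL) fun l => cF l ^ 2
    have h2 : 0 ≤ ∑ l ∈ Lm.filter (· ∈ FL), cF l ^ 2 := Finset.sum_nonneg fun _ _ => sq_nonneg _
    linarith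
  have hV0 : 0 ≤ (|r0| + 1) * (1 + η) := mul_nonneg (by positivity) (by linarith)
  refine (mul_le_mul_of_nonneg_left key (sq_nonneg (1 - x))).trans ?_
  exact errV_scale hx1 hx2 (mul_pos hs2 hn') (h g0).le (Real.sqrt_nonneg _) (Real.sqrt_nonneg _)
    hv.ne' (mul_nonneg (mul_nonneg (Nat.cast_nonneg _) hV0) (Real.sqrt_nonneg _))

/-- **the squared norm of the linear identity of the row of a hidden site in the ensemble `U`,
modulated levels revealed.** -/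
theorem dv_U (h : ∀ g, 0 < lam g) (hA : AmU a η) (hM : Mods a η g0 Lm) (hx0 : 0 ≤ x)
    (hx : x < 1) {r0 : ℝ}
    (hc : c g0 = (∑ l ∈ Lm, cF l ^ 2) * n * (1 - (1 - x) * r0)) (BL : Finset LB)
    (FL : Finset LF) {S S1 : Finset (Fin n)} (hS : S ⊆ S1) {i0 : Fin n} (hi0 : i0 ∉ S)
    (hne : (S1 \ S).Nonempty) (hv : 0 < ∑ l ∈ Lm.filter (· ∉ FL), cF l ^ 2)
    {B p : ℝ} (hB : 0 ≤ B)
    (hp : exU n (nuG lam η c) b cB cF a x (H317.ind (B ^ 2) (fun z => ∑ j ∈ S, ∑ l ∈ S,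
      cxU n (nuG lam η c) b cB cF a x (Kset S BL FL)
        (avU n (nuG lam η c) b cB cF a (fun w => sp w.2 j * sp w.2 l)) z ^ 2)) ≤ p) :
    exU n (nuG lam η c) b cB cF a x (fun z => ∑ j ∈ S,
        (cxU n (nuG lam η c) b cB cF a x (Kset S BL FL)
          (H615.Th (avU n (nuG lam η c) b cB cF a) x (fun w => al η (w.1 g0))
            (fun w => sp w.2 i0) (fun j w => sp w.2 j) j) z -
        (1 - (1 - x) * r0) *
          MU n (nuG lam η c) b cB cF a x (Kset S BL FL) (fun θ => al η (θ g0)) j z) ^ 2) ≤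
      2 * (8 * (1 + η) ^ 2 * √(R2U n (nuG lam η c) b cB cF a x (Kset S1 BL FL) Finset.univ) /
        (S1 \ S).card) +
      2 * errV η r0 (lam g0 / ((∑ l ∈ Lm, cF l ^ 2) * n))
        ((∑ l ∈ Lm.filter (· ∈ FL), cF l ^ 2) /
          ((∑ l ∈ Lm.filter (· ∉ FL), cF l ^ 2) * ((∑ l ∈ Lm, cF l ^ 2) * n)))
        S.card B (R2U n (nuG lam η c) b cB cF a x (Kset S BL FL) S)
        (stk n (nuG lam η c) b cB cF a η x g0) p := by
  have hη := hA.nn
  have hν := finite_nuG h hη c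
  have h0 := nuG_ne h hη c
  have hG := gmU (n := n) b cB cF η hν h0 hA
  have hw := wtU (n := n) (LB := LB) b cB cF hν h0 hA x
  have : Nonempty (Fin n) := ⟨i0⟩
  have hn : 0 < n := lt_of_le_of_lt (Nat.zero_le _) i0.2
  have hr : Measurable fun θ : G → ℝ => al η (θ g0) :=
    (measurable_al η).comp (measurable_pi_apply g0)
  have hra : ∀ θ : G → ℝ, |al η (θ g0)| ≤ 1 + η := fun θ => by
    have h1 := al_mem hη (θ g0)
    rw [abs_le]; constructor <;> linarith [h1.1, h1.2]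
  have hSt := sitesU (n := n) b cB cF a hν hr hra
  have hK := revK (n := n) BL FL
  have k1 := hSt.w0_l2 hG hK 1 hx0 hx.le (A0 := 1 + η) (fun w => hra w.1) (by linarith) r0 hS
    hi0 hne (T := S) (fun π h j hj => h j hj)
  have k2 := pv_U h hA hM hx0 hx hn hc BL FL S hv hB hp
  set D : Fin n → (Co n LB LF → ℝ) → ℝ := fun j z =>
    cxU n (nuG lam η c) b cB cF a x (Kset S BL FL)
          (H615.Th (avU n (nuG lam η c) b cB cF a) x (fun w => al η (w.1 g0))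
            (fun w => sp w.2 i0) (fun j w => sp w.2 j) j) z -
        (1 - (1 - x) * r0) *
          MU n (nuG lam η c) b cB cF a x (Kset S BL FL) (fun θ => al η (θ g0)) j z with hD
  set V : Fin n → (Co n LB LF → ℝ) → ℝ := fun j =>
    cxU n (nuG lam η c) b cB cF a x (Kset S BL FL)
    (Va (muU (nuG lam η c) n) 1 r0 (SU b cB cF a) (fun (i : Fin n) w => sp w.2 i)
      (fun w => al η (w.1 g0)) (fun (j : Fin n) w => sp w.2 j) j) with hV
  have bV : ∀ j, BM (V j) := fun j => hw.bm_cx _ (hSt.bm_Va hG 1 r0 j)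
  have bT : ∀ j, BM (Th (muU (nuG lam η c) n) 1 x (SU b cB cF a)
      (fun (i : Fin n) (w : (G → ℝ) × Xs n) => sp w.2 i) (fun w => al η (w.1 g0))
      (fun (j : Fin n) w => sp w.2 j) i0 j) := fun j => (hSt.eqv hG 1 x).bm i0 j
  have bD : ∀ j, BM (D j) := fun j =>
    (hw.bm_cx _ (bT j)).sub ((BM.const _).mul (hw.bm_cx _ (hSt.bm_av hG 1 j)))
  have k1' : ∑ j ∈ S, exU n (nuG lam η c) b cB cF a x (fun z => (D j z - (1 - x) * V j z) ^ 2) ≤
      8 * (1 + η) ^ 2 * √(R2U n (nuG lam η c) b cB cF a x (Kset S1 BL FL) Finset.univ) /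
        (S1 \ S).card := k1
  have k2' : (1 - x) ^ 2 * ∑ j ∈ S, exU n (nuG lam η c) b cB cF a x (fun z => V j z ^ 2) ≤
      errV η r0 (lam g0 / ((∑ l ∈ Lm, cF l ^ 2) * n))
        ((∑ l ∈ Lm.filter (· ∈ FL), cF l ^ 2) /
          ((∑ l ∈ Lm.filter (· ∉ FL), cF l ^ 2) * ((∑ l ∈ Lm, cF l ^ 2) * n)))
        S.card B (R2U n (nuG lam η c) b cB cF a x (Kset S BL FL) S)
        (stk n (nuG lam η c) b cB cF a η x g0) p := k2
  have e1 : exU n (nuG lam η c) b cB cF a x (fun z => ∑ j ∈ S, D j z ^ 2) =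
      ∑ j ∈ S, exU n (nuG lam η c) b cB cF a x (fun z => D j z ^ 2) :=
    hw.ex_sum S fun j _ => (bD j).sq
  show exU n (nuG lam η c) b cB cF a x (fun z => ∑ j ∈ S, D j z ^ 2) ≤ _
  rw [e1]
  have e2 : ∀ j ∈ S, exU n (nuG lam η c) b cB cF a x (fun z => D j z ^ 2) ≤
      2 * exU n (nuG lam η c) b cB cF a x (fun z => (D j z - (1 - x) * V j z) ^ 2) +
      2 * ((1 - x) ^ 2 * exU n (nuG lam η c) b cB cF a x (fun z => V j z ^ 2)) := by
    intro j _
    have b1 : BM fun z => (D j z - (1 - x) * V j z) ^ 2 :=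
      ((bD j).sub ((BM.const _).mul (bV j))).sq
    rw [← hw.ex_const_mul, ← hw.ex_const_mul, ← hw.ex_const_mul,
      ← hw.ex_add ((BM.const 2).mul b1) ((BM.const 2).mul ((BM.const _).mul (bV j).sq))]
    refine hw.ex_mono (bD j).sq (((BM.const 2).mul b1).add ((BM.const 2).mul
      ((BM.const _).mul (bV j).sq))) fun z => ?_
    nlinarith [sq_nonneg (D j z - 2 * ((1 - x) * V j z))]
  refine (Finset.sum_le_sum e2).trans ?_
  rw [Finset.sum_add_distrib, ← Finset.mul_sum, ← Finset.mul_sum, ← Finset.mul_sum]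
  exact add_le_add (mul_le_mul_of_nonneg_left k1' zero_le_two)
    (mul_le_mul_of_nonneg_left k2' zero_le_two)

end U

end Vale.Agent.P146.H161.L2
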