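import Vale.Agent.P146.H420B.GgrC
import Vale.Agent.P146.H487.N4cx

/-!
# GGR: the defect `Va` tested with an arbitrary vector of revealed coordinates

Setting of `H420B.Ggr`. The coordinates `md i l`, `l` not in `Lr`, are hidden. No derivative of the
test vector is used: the integration by parts is done in the hidden modulated coordinates only, and
the revealed ones enter through the direction `bw` on the levels, orthogonal to `cG`, along which
the energies do not move.

* `hid_exact`: the exact identity, `yw i = ∑ l, bw l * u (md i l)`.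
* `yw_sq`: `∫ Z^x ⟨(∑ i, yw i σ i)^2⟩ = n * (∑ l, bw l ^ 2) * ∫ Z^x`.
* `ggr_l2`: `|∑ j ex (Q j * cx K (Va j))| ≤ (old terms) * √(∑ j ex (Q j)^2) +
    1/(1-x) * √(vr / (vh v n)) * √(ex ⟨(∑ j Q j τ j)^2⟩)`.
* `pv_le`: the squared norm of `cx K (Va j)` itself.
-/

open MeasureTheory ProbabilityTheory Filter

namespace Vale.Agent.P146.H161.L2

open Vale.Agent.P157.Lv hiding Dep
open Vale.Agent.P146.H196 Vale.Agent.P146.H646 Vale.Agent.P146.H347 Vale.Agent.P146.H325
  Vale.Agent.P146.H420B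

set_option linter.unusedSectionVars false

variable {ι s L J : Type} [Fintype ι] [DecidableEq ι] [Fintype s] [DecidableEq s] [Fintype L]
  [DecidableEq L] [Fintype J] [DecidableEq J]
  {Ω : Type} [MeasurableSpace Ω] {μ : Measure Ω} {S : ι → Ω → ℝ} {M0 x : ℝ}
  {md : s → L → ι} {cG : L → ℝ} {σ : s → Ω → ℝ} {a I sg : Ω → ℝ} {lam c r0 η : ℝ}
  {τ : J → Ω → ℝ} {Lr : Finset L}

/-- the revealed variance -/
noncomputable def vr (cG : L → ℝ) (Lr : Finset L) : ℝ := ∑ l ∈ Lr, cG l ^ 2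

/-- the hidden variance -/
noncomputable def vh (cG : L → ℝ) (Lr : Finset L) : ℝ := ∑ l ∈ Lrᶜ, cG l ^ 2

lemma vr_add_vh : vr cG Lr + vh cG Lr = vG cG := Finset.sum_add_sum_compl Lr fun l => cG l ^ 2

lemma vr_nn : 0 ≤ vr cG Lr := Finset.sum_nonneg fun _ _ => sq_nonneg _

lemma vh_nn : 0 ≤ vh cG Lr := Finset.sum_nonneg fun _ _ => sq_nonneg _

/-- the direction on the levels which does not move the energies -/
noncomputable def bw (cG : L → ℝ) (Lr : Finset L) (l : L) : ℝ :=
  if l ∈ Lr then vh cG Lr * cG l else -(vr cG Lr * cG l)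

lemma bw_split (f : L → ℝ) : vh cG Lr * ∑ l, cG l * f l =
    vG cG * (∑ l ∈ Lrᶜ, cG l * f l) + ∑ l, bw cG Lr l * f l := by
  have h1 : ∑ l, bw cG Lr l * f l = vh cG Lr * (∑ l ∈ Lr, cG l * f l) -
      vr cG Lr * ∑ l ∈ Lrᶜ, cG l * f l := by
    rw [← Finset.sum_add_sum_compl Lr, Finset.mul_sum, Finset.mul_sum, sub_eq_add_neg,
      ← Finset.sum_neg_distrib]
    congr 1
    · refine Finset.sum_congr rfl fun l hl => ?_
      rw [bw, if_pos hl]; ring
    · refine Finset.sum_congr rfl fun l hl => ?_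
      rw [bw, if_neg (Finset.mem_compl.1 hl)]; ring
  rw [h1, ← Finset.sum_add_sum_compl Lr (fun l => cG l * f l), ← vr_add_vh (Lr := Lr)]
  ring

lemma bw_dot : ∑ l, bw cG Lr l * cG l = 0 := by
  have h := bw_split (cG := cG) (Lr := Lr) cG
  have h1 : ∑ l, cG l * cG l = vG cG := Finset.sum_congr rfl fun l _ => (sq _).symm
  have h2 : ∑ l ∈ Lrᶜ, cG l * cG l = vh cG Lr := Finset.sum_congr rfl fun l _ => (sq _).symm
  rw [h1, h2] at h
  linarith

lemma bw_sq : ∑ l, bw cG Lr l ^ 2 = vh cG Lr * vr cG Lr * vG cG := by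
  have h := bw_split (cG := cG) (Lr := Lr) (fun l => bw cG Lr l)
  have h1 : ∑ l, cG l * bw cG Lr l = 0 := by
    rw [← bw_dot (cG := cG) (Lr := Lr)]
    exact Finset.sum_congr rfl fun l _ => mul_comm _ _
  have h2 : ∑ l ∈ Lrᶜ, cG l * bw cG Lr l = -(vr cG Lr * vh cG Lr) := by
    rw [vh, Finset.mul_sum, ← Finset.sum_neg_distrib]
    refine Finset.sum_congr rfl fun l hl => ?_
    rw [bw, if_neg (Finset.mem_compl.1 hl)]; ring
  rw [h1, h2] at h
  have h3 : ∑ l, bw cG Lr l ^ 2 = ∑ l, bw cG Lr l * bw cG Lr l :=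
    Finset.sum_congr rfl fun l _ => sq _
  rw [h3]
  linarith

/-- the field along the direction at the site `i` -/
noncomputable def yw (md : s → L → ι) (cG : L → ℝ) (Lr : Finset L) (i : s) (u : ι → ℝ) : ℝ :=
  ∑ l, bw cG Lr l * u (md i l)

lemma eg_yw (i : s) : EG (yw md cG Lr i) :=
  EG.sum _ fun l _ => (EG.coord (md i l)).const_mul _

/-- integration by parts along the direction -/
lemma stein_yw {i : s} {H : (ι → ℝ) → ℝ} {H1 : L → (ι → ℝ) → ℝ} (hd : ∀ l, PD (md i l) H (H1 l))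
    (hH : EG H) (hH1 : ∀ l, EG (H1 l)) :
    ∫ u, yw md cG Lr i u * H u ∂(gI ι) = ∫ u, ∑ l, bw cG Lr l * H1 l u ∂(gI ι) := by
  have e1 : ∀ u, yw md cG Lr i u * H u = ∑ l, bw cG Lr l * (u (md i l) * H u) := by
    intro u
    unfold yw
    rw [Finset.sum_mul]
    exact Finset.sum_congr rfl fun l _ => by ring
  simp only [e1]
  rw [integral_finsetSum _ fun l _ => (((EG.coord (md i l)).mul hH).const_mul _).integrable,
    integral_finsetSum _ fun l _ => ((hH1 l).const_mul _).integrable]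
  refine Finset.sum_congr rfl fun l _ => ?_
  rw [integral_const_mul, integral_const_mul, (hd l).stein hH (hH1 l)]

/-- the derivative of the field along the direction -/
lemma pd_yw (hmd : ∀ i l i' l', md i l = md i' l' → i = i' ∧ l = l') (i k : s) (l : L) :
    PD (md i l) (yw md cG Lr k) (fun _ => if k = i then bw cG Lr l else 0) := by
  have h := PD.sum (e := md i l) Finset.univ (H := fun l' u => bw cG Lr l' * u (md k l'))
    (H' := fun l' u => bw cG Lr l' * (if md k l' = md i l then 1 else 0))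
    fun l' _ => (PD.coord (md k l')).const_mul _
  refine h.congr fun y => ?_
  by_cases hk : k = i
  · subst hk
    rw [if_pos rfl, Finset.sum_eq_single l]
    · rw [if_pos rfl, mul_one]
    · intro l' _ hl
      rw [if_neg fun h => hl (hmd _ _ _ _ h).2, mul_zero]
    · intro h; exact absurd (Finset.mem_univ _) h
  · rw [if_neg hk]
    refine Finset.sum_eq_zero fun l' _ => ?_
    rw [if_neg fun h => hk (hmd _ _ _ _ h).1, mul_zero]

/-- **the exact identity, no derivative of the test function** -/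
theorem hid_exact (hG : GM μ S M0) (hM : MS S md cG σ a I sg) (x : ℝ) {T : Ω → ℝ} (bT : Bm T)
    (hT : AIbp μ S md cG σ a I sg lam c T) {K : Finset ι} (hK : ∀ i l, l ∉ Lr → md i l ∉ K)
    {φ : (ι → ℝ) → ℝ} (hφ : EG φ) (dφ : H646.Dep K φ) :
    vh cG Lr * (∫ u, φ u * (Zxm μ 1 S x u * ((vG cG * Fintype.card s - c) *
          avm μ 1 S (fun w => T w * I w * a w) u -
        (1 - x) * vG cG * ∑ i, avm μ 1 S (fun w => T w * I w * σ i w) u *
          avm μ 1 S (fun w => a w * σ i w) u)) ∂(gI ι)) +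
      ∑ i, ∫ u, yw md cG Lr i u * (φ u * (Zxm μ 1 S x u *
        avm μ 1 S (fun w => T w * I w * σ i w) u)) ∂(gI ι) =
      vh cG Lr * (lam * ∫ u, φ u * (Zxm μ 1 S x u * avm μ 1 S (fun w => T w * sg w) u)
        ∂(gI ι)) := by
  have bTI : Bm fun w => T w * I w := bT.mul hM.bI
  have bf : ∀ i, Bm fun w => T w * I w * σ i w := fun i => bTI.mul (hM.bs i)
  have bal : Bm fun w => T w * I w * a w := bTI.mul hM.ba
  have bas : ∀ i, Bm fun w => a w * σ i w := fun i => hM.ba.mul (hM.bs i)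
  have eZ := hG.eg_Zx 1 x
  set P : s → (ι → ℝ) → ℝ := fun i => avm μ 1 S (fun w => T w * I w * σ i w) with hP
  set A : (ι → ℝ) → ℝ := avm μ 1 S (fun w => T w * I w * a w) with hA
  set B : s → (ι → ℝ) → ℝ := fun i => avm μ 1 S (fun w => a w * σ i w) with hB
  have eP : ∀ i, EG (P i) := fun i => hG.eg_av 1 (bf i)
  have eA : EG A := hG.eg_av 1 bal
  have eB : ∀ i, EG (B i) := fun i => hG.eg_av 1 (bas i)
  have i1 : ∀ i l, Integrable (fun u : ι → ℝ => cG l * (u (md i l) * (φ u *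
      (Zxm μ 1 S x u * P i u)))) (gI ι) := fun i l =>
    (EG.const_mul _ ((EG.coord (md i l)).mul (hφ.mul (eZ.mul (eP i))))).integrable
  have i2 : Integrable (fun u : ι → ℝ => vh cG Lr * c * (φ u * (Zxm μ 1 S x u * A u))) (gI ι) :=
    ((hφ.mul (eZ.mul eA)).const_mul _).integrable
  have i4 : ∀ i, Integrable (fun u : ι → ℝ => yw md cG Lr i u * (φ u *
      (Zxm μ 1 S x u * P i u))) (gI ι) := fun i =>
    ((eg_yw i).mul (hφ.mul (eZ.mul (eP i)))).integrable
  have i5 : ∀ i, Integrable (fun u : ι → ℝ => vG cG * ∑ l ∈ Lrᶜ, cG l * (u (md i l) * (φ u *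
      (Zxm μ 1 S x u * P i u)))) (gI ι) := fun i =>
    (integrable_finsetSum _ fun l _ => i1 i l).const_mul _
  have i45 : ∀ i, Integrable (fun u : ι → ℝ => vG cG * (∑ l ∈ Lrᶜ, cG l * (u (md i l) * (φ u *
      (Zxm μ 1 S x u * P i u)))) + yw md cG Lr i u * (φ u * (Zxm μ 1 S x u * P i u))) (gI ι) :=
    fun i => (i5 i).add (i4 i)
  -- the thermal identity, split
  have e1 : vh cG Lr * (lam * ∫ u, φ u * (Zxm μ 1 S x u * avm μ 1 S (fun w => T w * sg w) u)
        ∂(gI ι)) =
      (∑ i, ((∫ u, vG cG * ∑ l ∈ Lrᶜ, cG l * (u (md i l) * (φ u * (Zxm μ 1 S x u * P i u)))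
          ∂(gI ι)) +
        ∫ u, yw md cG Lr i u * (φ u * (Zxm μ 1 S x u * P i u)) ∂(gI ι))) -
        ∫ u, vh cG Lr * c * (φ u * (Zxm μ 1 S x u * A u)) ∂(gI ι) := by
    rw [← integral_const_mul, ← integral_const_mul]
    have e2 : ∀ i, (∫ u, vG cG * ∑ l ∈ Lrᶜ, cG l * (u (md i l) * (φ u * (Zxm μ 1 S x u * P i u)))
          ∂(gI ι)) +
        ∫ u, yw md cG Lr i u * (φ u * (Zxm μ 1 S x u * P i u)) ∂(gI ι) =
        ∫ u, (vG cG * (∑ l ∈ Lrᶜ, cG l * (u (md i l) * (φ u * (Zxm μ 1 S x u * P i u)))) +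
          yw md cG Lr i u * (φ u * (Zxm μ 1 S x u * P i u))) ∂(gI ι) := fun i =>
      (integral_add (i5 i) (i4 i)).symm
    rw [Finset.sum_congr rfl fun i _ => e2 i, ← integral_finsetSum _ fun i _ => i45 i,
      ← integral_sub (integrable_finsetSum _ fun i _ => i45 i) i2]
    refine integral_congr_ae (Eventually.of_forall fun u => ?_)
    simp only
    have h1 := hT u
    have h2 : vh cG Lr * (lam * (φ u * (Zxm μ 1 S x u * avm μ 1 S (fun w => T w * sg w) u))) =
        vh cG Lr * (φ u * (Zxm μ 1 S x u * (lam * avm μ 1 S (fun w => T w * sg w) u))) := by ring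
    rw [h2, ← h1]
    have h3 : ∀ i, vG cG * (∑ l ∈ Lrᶜ, cG l * (u (md i l) * (φ u * (Zxm μ 1 S x u * P i u)))) +
          yw md cG Lr i u * (φ u * (Zxm μ 1 S x u * P i u)) =
        vh cG Lr * (φ u * (Zxm μ 1 S x u * ∑ l, u (md i l) * (cG l * P i u))) := by
      intro i
      have h4 := bw_split (cG := cG) (Lr := Lr) (fun l => u (md i l))
      have h5 : ∑ l ∈ Lrᶜ, cG l * (u (md i l) * (φ u * (Zxm μ 1 S x u * P i u))) =
          (∑ l ∈ Lrᶜ, cG l * u (md i l)) * (φ u * (Zxm μ 1 S x u * P i u)) := by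
        rw [Finset.sum_mul]
        exact Finset.sum_congr rfl fun l _ => by ring
      have h6 : ∑ l, u (md i l) * (cG l * P i u) = (∑ l, cG l * u (md i l)) * P i u := by
        rw [Finset.sum_mul]
        exact Finset.sum_congr rfl fun l _ => by ring
      have h7 : yw md cG Lr i u = ∑ l, bw cG Lr l * u (md i l) := rfl
      rw [h5, h6, h7]
      linear_combination (-(φ u * (Zxm μ 1 S x u * P i u))) * h4
    simp only [h3]
    rw [← Finset.mul_sum, ← Finset.mul_sum, ← Finset.mul_sum]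
    simp only [hP, hA]
    ring
  have e3 : ∀ i, ∫ u, vG cG * ∑ l ∈ Lrᶜ, cG l * (u (md i l) * (φ u * (Zxm μ 1 S x u * P i u)))
      ∂(gI ι) = ∫ u, vG cG * vh cG Lr * (φ u * (Zxm μ 1 S x u * (A u - (1 - x) *
        (P i u * B i u)))) ∂(gI ι) := by
    intro i
    have i3 : ∀ l, Integrable (fun u : ι → ℝ => cG l * (φ u * (Zxm μ 1 S x u * (cG l * A u -
        (1 - x) * (cG l * (P i u * B i u)))))) (gI ι) := fun l =>
      ((hφ.mul (eZ.mul ((eA.const_mul (cG l)).sub (EG.const_mul (1 - x) (EG.const_mul (cG l)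
        ((eP i).mul (eB i))))))).const_mul _).integrable
    rw [integral_const_mul, integral_finsetSum _ fun l _ => i1 i l]
    have e4 : ∀ l ∈ Lrᶜ, ∫ u, cG l * (u (md i l) * (φ u * (Zxm μ 1 S x u * P i u))) ∂(gI ι) =
        ∫ u, cG l * (φ u * (Zxm μ 1 S x u * (cG l * A u - (1 - x) * (cG l *
        (P i u * B i u))))) ∂(gI ι) := by
      intro l hl
      have e9 := stein_md hG hM x bT hφ (i := i) (l := l)
        (H487.pd_dep (hK i l (Finset.mem_compl.1 hl)) dφ) (EG.const 0)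
      simp only [zero_mul, integral_zero, add_zero] at e9
      rw [integral_const_mul, integral_const_mul, e9]
    rw [Finset.sum_congr rfl e4, ← integral_finsetSum _ fun l _ => i3 l, ← integral_const_mul]
    refine integral_congr_ae (Eventually.of_forall fun u => ?_)
    simp only
    have f1 : ∀ l, cG l * (φ u * (Zxm μ 1 S x u * (cG l * A u - (1 - x) * (cG l *
        (P i u * B i u))))) = cG l ^ 2 * (φ u * (Zxm μ 1 S x u * (A u - (1 - x) *
        (P i u * B i u)))) := fun l => by ring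
    simp only [f1]
    rw [← Finset.sum_mul, vh]
    ring
  rw [e1]
  simp only [e3]
  rw [Finset.sum_add_distrib]
  have i6 : ∀ i, Integrable (fun u : ι → ℝ => vG cG * vh cG Lr * (φ u * (Zxm μ 1 S x u *
      (A u - (1 - x) * (P i u * B i u))))) (gI ι) := fun i =>
    ((hφ.mul (eZ.mul (eA.sub (EG.const_mul (1 - x) ((eP i).mul (eB i)))))).const_mul _).integrable
  have e5 : vh cG Lr * (∫ u, φ u * (Zxm μ 1 S x u * ((vG cG * Fintype.card s - c) * A u -
        (1 - x) * vG cG * ∑ i, P i u * B i u)) ∂(gI ι)) =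
      (∑ i, ∫ u, vG cG * vh cG Lr * (φ u * (Zxm μ 1 S x u * (A u - (1 - x) *
        (P i u * B i u)))) ∂(gI ι)) - ∫ u, vh cG Lr * c * (φ u * (Zxm μ 1 S x u * A u)) ∂(gI ι) := by
    rw [← integral_finsetSum _ fun i _ => i6 i,
      ← integral_sub (integrable_finsetSum _ fun i _ => i6 i) i2, ← integral_const_mul]
    refine integral_congr_ae (Eventually.of_forall fun u => ?_)
    simp only
    have f2 : ∑ i, vG cG * vh cG Lr * (φ u * (Zxm μ 1 S x u * (A u - (1 - x) *
        (P i u * B i u)))) = vG cG * vh cG Lr * (φ u * (Zxm μ 1 S x u *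
          (Fintype.card s * A u - (1 - x) * ∑ i, P i u * B i u))) := by
      rw [← Finset.mul_sum, ← Finset.mul_sum, ← Finset.mul_sum, Finset.sum_sub_distrib,
        Finset.sum_const, Finset.card_univ, nsmul_eq_mul, Finset.mul_sum]
    rw [f2]
    ring
  rw [e5]
  ring

/-- **the second moment of the orthogonal field** -/
theorem yw_sq (hG : GM μ S M0) (hM : MS S md cG σ a I sg) (x : ℝ)
    (hmd : ∀ i l i' l', md i l = md i' l' → i = i' ∧ l = l') :
    ∫ u, Zxm μ 1 S x u * (∑ i, ∑ k, yw md cG Lr i u * yw md cG Lr k u *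
        avm μ 1 S (fun w => σ i w * σ k w) u) ∂(gI ι) =
      Fintype.card s * (vh cG Lr * vr cG Lr * vG cG) * ∫ u, Zxm μ 1 S x u ∂(gI ι) := by
  have eZ := hG.eg_Zx 1 x
  have bf : ∀ i k, Bm fun w => σ i w * σ k w := fun i k => (hM.bs i).mul (hM.bs k)
  have ef : ∀ i k, EG (avm μ 1 S (fun w => σ i w * σ k w)) := fun i k => hG.eg_av 1 (bf i k)
  have i1 : ∀ i k, Integrable (fun u => yw md cG Lr i u * (yw md cG Lr k u * (Zxm μ 1 S x u *
      avm μ 1 S (fun w => σ i w * σ k w) u))) (gI ι) := fun i k =>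
    ((eg_yw i).mul ((eg_yw k).mul (eZ.mul (ef i k)))).integrable
  have e1 : ∀ u, Zxm μ 1 S x u * (∑ i, ∑ k, yw md cG Lr i u * yw md cG Lr k u *
        avm μ 1 S (fun w => σ i w * σ k w) u) = ∑ i, ∑ k, yw md cG Lr i u *
        (yw md cG Lr k u * (Zxm μ 1 S x u * avm μ 1 S (fun w => σ i w * σ k w) u)) := by
    intro u
    rw [Finset.mul_sum]
    refine Finset.sum_congr rfl fun i _ => ?_
    rw [Finset.mul_sum]
    exact Finset.sum_congr rfl fun k _ => by ring
  simp only [e1]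
  rw [integral_finsetSum _ fun i _ => integrable_finsetSum _ fun k _ => i1 i k]
  have e2 : ∀ i k, ∫ u, yw md cG Lr i u * (yw md cG Lr k u * (Zxm μ 1 S x u *
      avm μ 1 S (fun w => σ i w * σ k w) u)) ∂(gI ι) =
      if k = i then vh cG Lr * vr cG Lr * vG cG * ∫ u, Zxm μ 1 S x u ∂(gI ι) else 0 := by
    intro i k
    obtain ⟨F2, hC⟩ := hG.c2_Zav 1 x (bf i k)
    have hd : ∀ l, PD (md i l) _ _ := fun l => (pd_yw (cG := cG) (Lr := Lr) hmd i k l).mul
      (hC.pd0 (md i l))
    have hH := (eg_yw (md := md) (cG := cG) (Lr := Lr) k).mul hC.eg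
    have hH1 := fun l => ((EG.const (ι := ι) (if k = i then bw cG Lr l else 0)).mul hC.eg).add
      ((eg_yw (md := md) (cG := cG) (Lr := Lr) k).mul (hC.eg1 (md i l)))
    rw [stein_yw hd hH hH1]
    have a1 : ∀ l u, avm μ 1 S (fun w => σ i w * σ k w * S (md i l) w) u =
        cG l * avm μ 1 S (fun w => σ i w * σ k w * (a w * σ i w)) u := by
      intro l u
      rw [← H196.av_mul]
      congr 1
      funext w
      rw [hM.en]
      ring
    have a2 : ∀ l u, avm μ 1 S (S (md i l)) u = cG l * avm μ 1 S (fun w => a w * σ i w) u := by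
      intro l u
      rw [← H196.av_mul]
      congr 1
      funext w
      rw [hM.en]
    simp only [a1, a2]
    by_cases hk : k = i
    · subst hk
      simp only [if_true]
      have h1 : ∀ u, avm μ 1 S (fun w => σ k w * σ k w) u = 1 := by
        intro u
        have : (fun w => σ k w * σ k w) = fun _ : Ω => (1 : ℝ) := by
          funext w; rw [← sq, hM.s2]
        rw [this, hG.av_one]
      rw [← integral_const_mul]
      refine integral_congr_ae (Eventually.of_forall fun u => ?_)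
      simp only [h1]
      rw [← bw_sq]
      have f1 : ∀ l, bw cG Lr l * (bw cG Lr l * (Zxm μ 1 S x u * 1) + yw md cG Lr k u * (1 *
          (Zxm μ 1 S x u * (cG l * avm μ 1 S (fun w => σ k w * σ k w * (a w * σ k w)) u -
            (1 - x) * (1 * (cG l * avm μ 1 S (fun w => a w * σ k w) u)))))) =
          bw cG Lr l ^ 2 * Zxm μ 1 S x u + bw cG Lr l * cG l * (yw md cG Lr k u *
            (Zxm μ 1 S x u * (avm μ 1 S (fun w => σ k w * σ k w * (a w * σ k w)) u -
            (1 - x) * avm μ 1 S (fun w => a w * σ k w) u))) := fun l => by ring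
      simp only [f1]
      rw [Finset.sum_add_distrib, ← Finset.sum_mul, ← Finset.sum_mul, bw_dot, zero_mul, add_zero]
    · simp only [if_neg hk, zero_mul, zero_add]
      have f1 : ∀ u, ∑ l, bw cG Lr l * (yw md cG Lr k u * (1 * (Zxm μ 1 S x u *
          (cG l * avm μ 1 S (fun w => σ i w * σ k w * (a w * σ i w)) u -
            (1 - x) * (avm μ 1 S (fun w => σ i w * σ k w) u *
              (cG l * avm μ 1 S (fun w => a w * σ i w) u)))))) = 0 := by
        intro u
        have f2 : ∀ l, bw cG Lr l * (yw md cG Lr k u * (1 * (Zxm μ 1 S x u *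
          (cG l * avm μ 1 S (fun w => σ i w * σ k w * (a w * σ i w)) u -
            (1 - x) * (avm μ 1 S (fun w => σ i w * σ k w) u *
              (cG l * avm μ 1 S (fun w => a w * σ i w) u)))))) =
            bw cG Lr l * cG l * (yw md cG Lr k u * (Zxm μ 1 S x u *
            (avm μ 1 S (fun w => σ i w * σ k w * (a w * σ i w)) u -
            (1 - x) * (avm μ 1 S (fun w => σ i w * σ k w) u *
              avm μ 1 S (fun w => a w * σ i w) u)))) := fun l => by ring
        simp only [f2]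
        rw [← Finset.sum_mul, bw_dot, zero_mul]
      simp only [f1, integral_zero]
  have e3 : ∀ i : s, ∑ k, (if k = i then vh cG Lr * vr cG Lr * vG cG *
      ∫ u, Zxm μ 1 S x u ∂(gI ι) else 0) = vh cG Lr * vr cG Lr * vG cG *
      ∫ u, Zxm μ 1 S x u ∂(gI ι) := fun i => by
    rw [Finset.sum_ite_eq' Finset.univ i, if_pos (Finset.mem_univ _)]
  have e4 : ∀ i : s, ∫ u, ∑ k, yw md cG Lr i u * (yw md cG Lr k u * (Zxm μ 1 S x u *
      avm μ 1 S (fun w => σ i w * σ k w) u)) ∂(gI ι) = vh cG Lr * vr cG Lr * vG cG *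
      ∫ u, Zxm μ 1 S x u ∂(gI ι) := fun i => by
    rw [integral_finsetSum _ fun k _ => i1 i k, Finset.sum_congr rfl fun k _ => e2 i k, e3]
  rw [Finset.sum_congr rfl fun i _ => e4 i, Finset.sum_const, Finset.card_univ, nsmul_eq_mul]
  ring

/-- expansion of a bilinear average -/
lemma av_bil {A B : Type} [Fintype A] [Fintype B] (hG : GM μ S M0) {f : A → Ω → ℝ}
    {g : B → Ω → ℝ} {h : Ω → ℝ} (bf : ∀ j, Bm (f j)) (bg : ∀ i, Bm (g i)) (bh : Bm h)
    (q : A → ℝ) (y : B → ℝ) (z : ι → ℝ) :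
    avm μ 1 S (fun w => (∑ j, q j * f j w) * h w * (∑ i, y i * g i w)) z =
      ∑ j, ∑ i, q j * y i * avm μ 1 S (fun w => f j w * h w * g i w) z := by
  have e1 : (fun w => (∑ j, q j * f j w) * h w * (∑ i, y i * g i w)) =
      fun w => ∑ j, ∑ i, q j * y i * (f j w * h w * g i w) := by
    funext w
    rw [Finset.sum_mul, Finset.sum_mul_sum]
    exact Finset.sum_congr rfl fun j _ => Finset.sum_congr rfl fun i _ => by ring
  have b1 : ∀ j i, Bm fun w => q j * y i * (f j w * h w * g i w) := fun j i =>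
    Bm.const_mul _ (((bf j).mul bh).mul (bg i))
  rw [e1, hG.av_sum 1 Finset.univ fun j _ => Bm.sum _ fun i _ => b1 j i]
  refine Finset.sum_congr rfl fun j _ => ?_
  rw [hG.av_sum 1 Finset.univ fun i _ => b1 j i]
  exact Finset.sum_congr rfl fun i _ => H196.av_mul _ _ _ _ _ _

/-- **Cauchy-Schwarz with unbounded coefficients** -/
theorem cross_le (hG : GM μ S M0) (hM : MS S md cG σ a I sg) (x : ℝ) (bt : ∀ j, Bm (τ j))
    {Q : J → (ι → ℝ) → ℝ} (hQ : ∀ j, EG (Q j)) {y : s → (ι → ℝ) → ℝ} (hy : ∀ i, EG (y i)) :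
    |∑ j, ∑ i, ∫ u, y i u * (Q j u * (Zxm μ 1 S x u *
        avm μ 1 S (fun w => τ j w * I w * σ i w) u)) ∂(gI ι)| ≤
      √(∫ u, Zxm μ 1 S x u * (∑ j, ∑ l, Q j u * Q l u *
        avm μ 1 S (fun w => τ j w * τ l w) u) ∂(gI ι)) *
      √(∫ u, Zxm μ 1 S x u * (∑ i, ∑ k, y i u * y k u *
        avm μ 1 S (fun w => σ i w * σ k w) u) ∂(gI ι)) := by
  have eZ := hG.eg_Zx 1 x
  have eP : ∀ j i, EG (avm μ 1 S (fun w => τ j w * I w * σ i w)) := fun j i =>
    hG.eg_av 1 (((bt j).mul hM.bI).mul (hM.bs i))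
  have eT : ∀ j l, EG (avm μ 1 S (fun w => τ j w * τ l w)) := fun j l =>
    hG.eg_av 1 ((bt j).mul (bt l))
  have eS : ∀ i k, EG (avm μ 1 S (fun w => σ i w * σ k w)) := fun i k =>
    hG.eg_av 1 ((hM.bs i).mul (hM.bs k))
  set FA : (ι → ℝ) → ℝ := fun u => Zxm μ 1 S x u * (∑ j, ∑ l, Q j u * Q l u *
        avm μ 1 S (fun w => τ j w * τ l w) u) with hFA
  set FC : (ι → ℝ) → ℝ := fun u => Zxm μ 1 S x u * (∑ i, ∑ k, y i u * y k u *
        avm μ 1 S (fun w => σ i w * σ k w) u) with hFC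
  set FB : (ι → ℝ) → ℝ := fun u => ∑ j, ∑ i, y i u * (Q j u * (Zxm μ 1 S x u *
        avm μ 1 S (fun w => τ j w * I w * σ i w) u)) with hFB
  have iA : Integrable FA (gI ι) := (eZ.mul (EG.sum _ fun j _ => EG.sum _ fun l _ =>
    ((hQ j).mul (hQ l)).mul (eT j l))).integrable
  have iC : Integrable FC (gI ι) := (eZ.mul (EG.sum _ fun i _ => EG.sum _ fun k _ =>
    ((hy i).mul (hy k)).mul (eS i k))).integrable
  have i1 : ∀ j i, Integrable (fun u => y i u * (Q j u * (Zxm μ 1 S x u *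
        avm μ 1 S (fun w => τ j w * I w * σ i w) u))) (gI ι) := fun j i =>
    ((hy i).mul ((hQ j).mul (eZ.mul (eP j i)))).integrable
  have iB : Integrable FB (gI ι) :=
    integrable_finsetSum _ fun j _ => integrable_finsetSum _ fun i _ => i1 j i
  have eB : ∑ j, ∑ i, ∫ u, y i u * (Q j u * (Zxm μ 1 S x u *
        avm μ 1 S (fun w => τ j w * I w * σ i w) u)) ∂(gI ι) = ∫ u, FB u ∂(gI ι) := by
    rw [hFB, integral_finsetSum _ fun j _ => integrable_finsetSum _ fun i _ => i1 j i]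
    exact Finset.sum_congr rfl fun j _ => (integral_finsetSum _ fun i _ => i1 j i).symm
  rw [eB]
  have hZ0 : ∀ u, 0 ≤ Zxm μ 1 S x u := fun u => by
    have := (H347.wt hG 1 x).pos u
    exact this.le
  have hpt : ∀ (t : ℝ) (u : ι → ℝ), 0 ≤ FC u * (t * t) + (2 * FB u) * t + FA u := by
    intro t u
    have bq : Bm fun w => ∑ j, Q j u * τ j w := Bm.sum _ fun j _ => (bt j).const_mul _
    have by' : Bm fun w => ∑ i, y i u * σ i w := Bm.sum _ fun i _ => (hM.bs i).const_mul _
    have e1 := av_bil hG bt bt (Bm.const 1) (fun j => Q j u) (fun j => Q j u) u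
    have e2 := av_bil hG hM.bs hM.bs (Bm.const 1) (fun i => y i u) (fun i => y i u) u
    have e3 := av_bil hG bt hM.bs hM.bI (fun j => Q j u) (fun i => y i u) u
    simp only [mul_one] at e1 e2
    have b1 := bq.mul bq
    have b2 := by'.mul by'
    have b3 := (bq.mul hM.bI).mul by'
    have h1 : 0 ≤ avm μ 1 S (fun w => ((t * t) * ((∑ i, y i u * σ i w) * (∑ i, y i u * σ i w)) +
        (2 * t) * ((∑ j, Q j u * τ j w) * I w * (∑ i, y i u * σ i w))) +
        (∑ j, Q j u * τ j w) * (∑ j, Q j u * τ j w)) u := by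
      refine hG.av_nonneg 1 (fun w => ?_) u
      set f := ∑ j, Q j u * τ j w
      set g := ∑ i, y i u * σ i w
      have i0 := hM.I0 w
      have i2 := hM.I1 w
      have h5 : 0 ≤ (1 - I w) * (t * t * (g * g) + f * f) :=
        mul_nonneg (by linarith) (by nlinarith [mul_self_nonneg (t * g), mul_self_nonneg f])
      have h6 : 0 ≤ I w * (t * g + f) ^ 2 := mul_nonneg i0 (sq_nonneg _)
      nlinarith
    rw [hG.av_add 1 ((b2.const_mul _).add (b3.const_mul _)) b1,
      hG.av_add 1 (b2.const_mul _) (b3.const_mul _), H196.av_mul, H196.av_mul, e1, e2, e3] at h1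
    have h2 := mul_nonneg (hZ0 u) h1
    have h3 : FB u = Zxm μ 1 S x u * ∑ j, ∑ i, Q j u * y i u *
        avm μ 1 S (fun w => τ j w * I w * σ i w) u := by
      simp only [hFB]
      rw [Finset.mul_sum]
      refine Finset.sum_congr rfl fun j _ => ?_
      rw [Finset.mul_sum]
      exact Finset.sum_congr rfl fun i _ => by ring
    rw [h3]
    simp only [hFA, hFC]
    linarith
  have hint : ∀ t : ℝ, 0 ≤ (∫ u, FC u ∂(gI ι)) * (t * t) + (2 * ∫ u, FB u ∂(gI ι)) * t +
      ∫ u, FA u ∂(gI ι) := by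
    intro t
    have h1 : 0 ≤ ∫ u, (FC u * (t * t) + (2 * FB u) * t + FA u) ∂(gI ι) :=
      integral_nonneg fun u => hpt t u
    have j1 : Integrable (fun u => FC u * (t * t)) (gI ι) := iC.mul_const _
    have j2 : Integrable (fun u => (2 * FB u) * t) (gI ι) := (iB.const_mul 2).mul_const _
    have j3 : Integrable (fun u => FC u * (t * t) + (2 * FB u) * t) (gI ι) := j1.add j2
    rw [integral_add j3 iA, integral_add j1 j2, integral_mul_const,
      integral_mul_const, integral_const_mul] at h1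
    exact h1
  have hd := discrim_le_zero hint
  unfold discrim at hd
  have hA0 : 0 ≤ ∫ u, FA u ∂(gI ι) := by
    have := hint 0
    simpa using this
  rw [← Real.sqrt_mul hA0]
  refine Real.abs_le_sqrt ?_
  nlinarith

section main

variable [Nonempty s] (hG : GM μ S M0) (hM : MS S md cG σ a I sg) (hv : 0 < vh cG Lr)
  (hx : x < 1)
include hG hM hv hx

/-- the exact identity in `ex`, summed -/
theorem hid_ex (bt : ∀ j, Bm (τ j)) (hT : ∀ j, AIbp μ S md cG σ a I sg lam c (τ j))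
    (hc : c = vG cG * Fintype.card s * (1 - (1 - x) * r0)) {K : Finset ι}
    (hK : ∀ i l, l ∉ Lr → md i l ∉ K) {Q : J → (ι → ℝ) → ℝ} (hQ : ∀ j, BM (Q j))
    (dQ : ∀ j, H646.Dep K (Q j)) :
    ∑ j, ex (g1 ι) (Zxm μ 1 S x) (fun z => Q j z * ViG r0 μ S σ a I (τ j) z)
      = lam / ((1 - x) * (vG cG * Fintype.card s)) * (∑ j, ex (g1 ι) (Zxm μ 1 S x)
          (fun z => Q j z * avm μ 1 S (fun w => τ j w * sg w) z))
        - 1 / (vh cG Lr * ((1 - x) * (vG cG * Fintype.card s))) *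
          ((∑ j, ∑ i, ∫ u, yw md cG Lr i u * (Q j u * (Zxm μ 1 S x u *
            avm μ 1 S (fun w => τ j w * I w * σ i w) u)) ∂(gI ι)) /
              ∫ z, Zxm μ 1 S x z ∂(Measure.pi (g1 ι))) := by
  have hn : (0 : ℝ) < Fintype.card s := by exact_mod_cast Fintype.card_pos
  have hvG : 0 < vG cG := by
    have := vr_nn (cG := cG) (Lr := Lr)
    rw [← vr_add_vh (Lr := Lr)]; linarith
  set D := (1 - x) * (vG cG * Fintype.card s) with hDdef
  have hD : 0 < D := by
    have : 0 < 1 - x := by linarith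
    positivity
  have hw := H347.wt hG 1 x
  have hW : (0 : ℝ) < ∫ z, Zxm μ 1 S x z ∂(Measure.pi (g1 ι)) := hw.tot_pos
  set W := ∫ z, Zxm μ 1 S x z ∂(Measure.pi (g1 ι)) with hWdef
  have e1 : ∀ f : (ι → ℝ) → ℝ, ex (g1 ι) (Zxm μ 1 S x) f =
      (∫ z, Zxm μ 1 S x z * f z ∂(Measure.pi (g1 ι))) / W := fun f => rfl
  have key : ∀ j, ex (g1 ι) (Zxm μ 1 S x) (fun z => Q j z * ViG r0 μ S σ a I (τ j) z)
      = lam / D * ex (g1 ι) (Zxm μ 1 S x) (fun z => Q j z * avm μ 1 S (fun w => τ j w * sg w) z)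
        - 1 / (vh cG Lr * D) * ((∑ i, ∫ u, yw md cG Lr i u * (Q j u * (Zxm μ 1 S x u *
            avm μ 1 S (fun w => τ j w * I w * σ i w) u)) ∂(gI ι)) / W) := by
    intro j
    have k1 := hid_exact (Lr := Lr) hG hM x (bt j) (hT j) hK (hQ j).eg (dQ j)
    have e2 : ∫ u, Q j u * (Zxm μ 1 S x u * ((vG cG * Fintype.card s - c) *
          avm μ 1 S (fun w => τ j w * I w * a w) u -
        (1 - x) * vG cG * ∑ i, avm μ 1 S (fun w => τ j w * I w * σ i w) u *
          avm μ 1 S (fun w => a w * σ i w) u)) ∂(gI ι) =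
      D * ∫ z, Zxm μ 1 S x z * (Q j z * ViG r0 μ S σ a I (τ j) z) ∂(Measure.pi (g1 ι)) := by
      rw [← integral_const_mul]
      refine integral_congr_ae (Eventually.of_forall fun z => ?_)
      simp only
      unfold ViG
      rw [hc, hDdef]
      field_simp
      ring
    have e3 : ∫ u, Q j u * (Zxm μ 1 S x u * avm μ 1 S (fun w => τ j w * sg w) u) ∂(gI ι) =
      ∫ z, Zxm μ 1 S x z * (Q j z * avm μ 1 S (fun w => τ j w * sg w) z) ∂(Measure.pi (g1 ι)) :=
      integral_congr_ae (Eventually.of_forall fun z => by simp only; ring)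
    rw [e2, e3] at k1
    rw [e1, e1]
    have fin : ∀ P1 P2 P3 V : ℝ, 0 < V → V * (D * P1) + P3 = V * (lam * P2) →
        P1 / W = lam / D * (P2 / W) - 1 / (V * D) * (P3 / W) := by
      intro P1 P2 P3 V hV h
      have h1 : P1 = (V * (lam * P2) - P3) / (V * D) := by
        rw [eq_div_iff (mul_pos hV hD).ne']
        linarith
      rw [h1]
      field_simp
    exact fin _ _ _ _ hv k1
  rw [Finset.sum_congr rfl fun j _ => key j, Finset.sum_sub_distrib]
  congr 1
  · rw [Finset.mul_sum]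
  · rw [Finset.sum_div, Finset.mul_sum]

/-- **the defect tested with any vector of revealed coordinates** -/
theorem ggr_l2 (hlam : 0 ≤ lam) (hη : 0 ≤ η) (ha : ∀ w, |a w| ≤ 1 + η) (bt : ∀ j, Bm (τ j))
    (ht : ∀ j w, |τ j w| ≤ 1) (hT : ∀ j, AIbp μ S md cG σ a I sg lam c (τ j))
    (hc : c = vG cG * Fintype.card s * (1 - (1 - x) * r0))
    (hmd : ∀ i l i' l', md i l = md i' l' → i = i' ∧ l = l') {K : Finset ι}
    (hK : ∀ i l, l ∉ Lr → md i l ∉ K)
    {Q : J → (ι → ℝ) → ℝ} (hQ : ∀ j, BM (Q j)) (dQ : ∀ j, H646.Dep K (Q j)) :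
    |∑ j, ex (g1 ι) (Zxm μ 1 S x) (fun z => Q j z *
        cx (g1 ι) K (Zxm μ 1 S x) (Va μ 1 r0 S σ a τ j) z)|
      ≤ (lam / ((1 - x) * (vG cG * Fintype.card s)) * √(√(∑ j, ∑ l, ex (g1 ι) (Zxm μ 1 S x)
            (fun z => cx (g1 ι) K (Zxm μ 1 S x) (avm μ 1 S (fun w => τ j w * τ l w)) z ^ 2)))
          + √(Fintype.card J * ((|r0| + 1) * (1 + η)) ^ 2 *
            ex (g1 ι) (Zxm μ 1 S x) (avm μ 1 S (fun w => 1 - I w)))) *
          √(∑ j, ex (g1 ι) (Zxm μ 1 S x) (fun z => Q j z ^ 2))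
        + 1 / (1 - x) * √(vr cG Lr / (vh cG Lr * (vG cG * Fintype.card s))) *
          √(∑ j, ∑ l, ex (g1 ι) (Zxm μ 1 S x)
            (fun z => Q j z * Q l z * avm μ 1 S (fun w => τ j w * τ l w) z)) := by
  have hn : (0 : ℝ) < Fintype.card s := by exact_mod_cast Fintype.card_pos
  have hvr := vr_nn (cG := cG) (Lr := Lr)
  have hvG : 0 < vG cG := by rw [← vr_add_vh (Lr := Lr)]; linarith
  set θ := lam / ((1 - x) * (vG cG * Fintype.card s)) with hθ
  set D' := 1 / (vh cG Lr * ((1 - x) * (vG cG * Fintype.card s))) with hD'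
  have hx1 : 0 < 1 - x := by linarith
  have hθ0 : 0 ≤ θ := by positivity
  have hD0 : 0 ≤ D' := by positivity
  have hw := H347.wt hG 1 x
  have hW : (0 : ℝ) < ∫ z, Zxm μ 1 S x z ∂(Measure.pi (g1 ι)) := hw.tot_pos
  set w := Zxm μ 1 S x with hwd
  set W := ∫ z, w z ∂(Measure.pi (g1 ι)) with hWdef
  have hs1 : ∀ i p, |σ i p| ≤ 1 := fun i p => by
    have := hM.s2 i p
    rw [← sq_abs] at this
    nlinarith [abs_nonneg (σ i p)]
  have bI1 : Bm fun w => 1 - I w := (Bm.const 1).sub hM.bI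
  have bA : ∀ j, BM (avm μ 1 S (fun w => τ j w * sg w)) := fun j =>
    H347.bm hG 1 ((bt j).mul hM.bg)
  have bV : ∀ j, BM (ViG r0 μ S σ a I (τ j)) := fun j => bm_ViG hG hM.ba hM.bs hM.bI (bt j)
  have bR : ∀ j, BM (ViG r0 μ S σ a (fun w => 1 - I w) (τ j)) := fun j =>
    bm_ViG hG hM.ba hM.bs bI1 (bt j)
  -- remove the conditional mean, split, and use the identity
  have e1 : ∀ j, ex (g1 ι) w (fun z => Q j z * cx (g1 ι) K w (Va μ 1 r0 S σ a τ j) z) =
      ex (g1 ι) w (fun z => Q j z * ViG r0 μ S σ a I (τ j) z) +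
      ex (g1 ι) w (fun z => Q j z * ViG r0 μ S σ a (fun w => 1 - I w) (τ j) z) := by
    intro j
    have h0 : Va μ 1 r0 S σ a τ j = fun z => ViG r0 μ S σ a I (τ j) z +
        ViG r0 μ S σ a (fun w => 1 - I w) (τ j) z := by
      funext z
      exact Va_split hG hM.ba hM.bs hM.bI bt j z
    rw [ex_cx hw (dQ j) (hQ j) (by rw [h0]; exact (bV j).add (bR j)), h0]
    have h1 : (fun z => Q j z * (ViG r0 μ S σ a I (τ j) z +
        ViG r0 μ S σ a (fun w => 1 - I w) (τ j) z)) =
        fun z => Q j z * ViG r0 μ S σ a I (τ j) z +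
          Q j z * ViG r0 μ S σ a (fun w => 1 - I w) (τ j) z := by
      funext z; ring
    rw [h1, hw.ex_add ((hQ j).mul (bV j)) ((hQ j).mul (bR j))]
  have e1' : ∑ j, ex (g1 ι) w (fun z => Q j z * avm μ 1 S (fun w => τ j w * sg w) z) =
      ip (g1 ι) w Q (fun j => cx (g1 ι) K w (avm μ 1 S (fun w => τ j w * sg w))) := by
    unfold ip
    exact Finset.sum_congr rfl fun j _ => (ex_cx hw (dQ j) (hQ j) (bA j)).symm
  set X := ∑ j, ∑ i, ∫ u, yw md cG Lr i u * (Q j u * (w u *
            avm μ 1 S (fun w => τ j w * I w * σ i w) u)) ∂(gI ι) with hX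
  have e2 : ∑ j, ex (g1 ι) w (fun z => Q j z * cx (g1 ι) K w (Va μ 1 r0 S σ a τ j) z) =
      θ * ip (g1 ι) w Q (fun j => cx (g1 ι) K w (avm μ 1 S (fun w => τ j w * sg w))) -
      D' * (X / W) +
      ip (g1 ι) w Q (fun j => ViG r0 μ S σ a (fun w => 1 - I w) (τ j)) := by
    rw [Finset.sum_congr rfl fun j _ => e1 j, Finset.sum_add_distrib,
      hid_ex hG hM hv hx bt hT hc hK hQ dQ, e1']
    rfl
  rw [e2]
  -- the three bounds
  have c1 := hw.abs_ip_le hQ (fun j => hw.bm_cx K (bA j))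
  have c2 := hw.abs_ip_le hQ bR
  have q1 : ip (g1 ι) w Q Q = ∑ j, ex (g1 ι) w (fun z => Q j z ^ 2) := by
    unfold ip
    simp only [← sq]
  have n1 : ip (g1 ι) w (fun j => cx (g1 ι) K w (avm μ 1 S (fun w => τ j w * sg w)))
        (fun j => cx (g1 ι) K w (avm μ 1 S (fun w => τ j w * sg w))) ≤
      √(∑ j, ∑ l, ex (g1 ι) w
        (fun z => cx (g1 ι) K w (avm μ 1 S (fun w => τ j w * τ l w)) z ^ 2)) := by
    have h4 := ex_norm hw bA (fun j l => H347.bm hG 1 ((bt j).mul (bt l))) (C := 1)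
      (fun u z => ?_) K
    · rw [one_pow, one_mul] at h4
      unfold ip
      simpa only [← sq] using h4
    · rw [one_pow, one_mul]
      have bL : Bm fun p : Ω => (∑ j, u j * τ j p) := Bm.sum _ fun j _ => (bt j).const_mul _
      have e6 : ∑ j, u j * avm μ 1 S (fun p => τ j p * sg p) z
          = avm μ 1 S (fun p => (∑ j, u j * τ j p) * sg p) z := by
        have e7 : (fun p : Ω => (∑ j, u j * τ j p) * sg p)
            = fun p => ∑ j, u j * (τ j p * sg p) := by
          funext p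
          rw [Finset.sum_mul]
          exact Finset.sum_congr rfl fun j _ => by ring
        rw [e7, hG.av_sum 1 Finset.univ fun j _ => Bm.const_mul _ ((bt j).mul hM.bg)]
        exact Finset.sum_congr rfl fun j _ => (H196.av_mul _ _ _ _ _ _).symm
      have e8 : ∑ j, ∑ l, u j * u l * avm μ 1 S (fun p => τ j p * τ l p) z
          = avm μ 1 S (fun p => (∑ j, u j * τ j p) ^ 2) z := by
        have e9 : (fun p : Ω => (∑ j, u j * τ j p) ^ 2)
            = fun p => ∑ j, ∑ l, u j * u l * (τ j p * τ l p) := by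
          funext p
          rw [sq, Finset.sum_mul_sum]
          exact Finset.sum_congr rfl fun j _ => Finset.sum_congr rfl fun l _ => by ring
        have b5 : ∀ j l, Bm fun p : Ω => u j * u l * (τ j p * τ l p) := fun j l =>
          Bm.const_mul _ ((bt j).mul (bt l))
        rw [e9, hG.av_sum 1 Finset.univ fun j _ => Bm.sum _ fun l _ => b5 j l]
        refine Finset.sum_congr rfl fun j _ => ?_
        rw [hG.av_sum 1 Finset.univ fun l _ => b5 j l]
        exact Finset.sum_congr rfl fun l _ => (H196.av_mul _ _ _ _ _ _).symm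
      rw [e6, e8]
      refine (hG.av_sq_le 1 (bL.mul hM.bg) z).trans (le_of_eq ?_)
      congr 1
      funext p
      rw [mul_pow, hM.g2, mul_one]
  have n2 : ip (g1 ι) w (fun j => ViG r0 μ S σ a (fun w => 1 - I w) (τ j))
        (fun j => ViG r0 μ S σ a (fun w => 1 - I w) (τ j)) ≤
      Fintype.card J * ((|r0| + 1) * (1 + η)) ^ 2 *
            ex (g1 ι) w (avm μ 1 S (fun w => 1 - I w)) := by
    unfold ip
    have h5 : ∀ j, ex (g1 ι) w (fun z => ViG r0 μ S σ a (fun w => 1 - I w) (τ j) z *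
        ViG r0 μ S σ a (fun w => 1 - I w) (τ j) z) ≤ ((|r0| + 1) * (1 + η)) ^ 2 *
            ex (g1 ι) w (avm μ 1 S (fun w => 1 - I w)) := by
      intro j
      rw [← hw.ex_const_mul]
      refine hw.ex_mono ((bR j).mul (bR j)) ((BM.const _).mul (H347.bm hG 1 bI1)) fun z => ?_
      have := ViG_sq_le (r0 := r0) hG hM.ba hM.bs hM.bI hM.I0 hM.I1 hη ha hs1 (bt j) (ht j) z
      rw [sq] at this
      exact this
    refine (Finset.sum_le_sum fun j _ => h5 j).trans (le_of_eq ?_)
    rw [Finset.sum_const, Finset.card_univ, nsmul_eq_mul]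
    ring
  rw [q1] at c1 c2
  set q := √(∑ j, ex (g1 ι) w (fun z => Q j z ^ 2)) with hq
  have hq0 : 0 ≤ q := Real.sqrt_nonneg _
  have c1' := c1.trans (mul_le_mul_of_nonneg_left (Real.sqrt_le_sqrt n1) hq0)
  have c2' := c2.trans (mul_le_mul_of_nonneg_left (Real.sqrt_le_sqrt n2) hq0)
  -- the cross term
  have c4 : D' * |X / W| ≤ 1 / (1 - x) * √(vr cG Lr / (vh cG Lr * (vG cG * Fintype.card s))) *
          √(∑ j, ∑ l, ex (g1 ι) w
            (fun z => Q j z * Q l z * avm μ 1 S (fun w => τ j w * τ l w) z)) := by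
    have k1 := cross_le hG hM x bt (fun j => (hQ j).eg) (y := fun i => yw md cG Lr i)
      fun i => eg_yw i
    rw [yw_sq hG hM x hmd] at k1
    have hgI : ∫ u, Zxm μ 1 S x u ∂(gI ι) = W := rfl
    rw [hgI] at k1
    have hbm : ∀ j l, BM (fun z => Q j z * Q l z * avm μ 1 S (fun w => τ j w * τ l w) z) :=
      fun j l => ((hQ j).mul (hQ l)).mul (H347.bm hG 1 ((bt j).mul (bt l)))
    have hA : ∫ u, Zxm μ 1 S x u * (∑ j, ∑ l, Q j u * Q l u *
        avm μ 1 S (fun w => τ j w * τ l w) u) ∂(gI ι) = W * ∑ j, ∑ l, ex (g1 ι) w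
            (fun z => Q j z * Q l z * avm μ 1 S (fun w => τ j w * τ l w) z) := by
      have h1 : ∑ j, ∑ l, ex (g1 ι) w
            (fun z => Q j z * Q l z * avm μ 1 S (fun w => τ j w * τ l w) z) =
          ex (g1 ι) w (fun z => ∑ j, ∑ l, Q j z * Q l z *
            avm μ 1 S (fun w => τ j w * τ l w) z) := by
        rw [hw.ex_sum Finset.univ fun j _ => BM.sum _ fun l _ => hbm j l]
        exact Finset.sum_congr rfl fun j _ => (hw.ex_sum Finset.univ fun l _ => hbm j l).symm
      rw [h1]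
      have h2 : ex (g1 ι) w (fun z => ∑ j, ∑ l, Q j z * Q l z *
            avm μ 1 S (fun w => τ j w * τ l w) z) = (∫ u, Zxm μ 1 S x u * (∑ j, ∑ l, Q j u *
            Q l u * avm μ 1 S (fun w => τ j w * τ l w) u) ∂(gI ι)) / W := rfl
      rw [h2]
      field_simp
    rw [hA] at k1
    set A := ∑ j, ∑ l, ex (g1 ι) w
            (fun z => Q j z * Q l z * avm μ 1 S (fun w => τ j w * τ l w) z) with hAd
    have k2 : |X| ≤ √(W * A) * √(Fintype.card s * (vh cG Lr * vr cG Lr * vG cG) * W) := k1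
    rw [abs_div, abs_of_pos hW]
    have k3 : √(W * A) = √W * √A := Real.sqrt_mul hW.le _
    have k4 : √(Fintype.card s * (vh cG Lr * vr cG Lr * vG cG) * W) =
        √(Fintype.card s * (vh cG Lr * vr cG Lr * vG cG)) * √W :=
      Real.sqrt_mul (by positivity) _
    have k5 : |X| / W ≤ √(Fintype.card s * (vh cG Lr * vr cG Lr * vG cG)) * √A := by
      rw [div_le_iff₀ hW]
      refine k2.trans (le_of_eq ?_)
      rw [k3, k4]
      have := Real.mul_self_sqrt hW.le
      linear_combination (√A * √(Fintype.card s * (vh cG Lr * vr cG Lr * vG cG))) * this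
    refine (mul_le_mul_of_nonneg_left k5 hD0).trans (le_of_eq ?_)
    have hD1 : D' = 1 / (1 - x) * (1 / (vh cG Lr * (vG cG * Fintype.card s))) := by
      rw [hD']
      field_simp
    have hp : 0 < vh cG Lr * (vG cG * Fintype.card s) := by positivity
    have k6 : 1 / (vh cG Lr * (vG cG * Fintype.card s)) *
        √(Fintype.card s * (vh cG Lr * vr cG Lr * vG cG)) =
        √(vr cG Lr / (vh cG Lr * (vG cG * Fintype.card s))) := by
      have h7 : vr cG Lr / (vh cG Lr * (vG cG * Fintype.card s)) =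
          (1 / (vh cG Lr * (vG cG * Fintype.card s))) ^ 2 *
            (Fintype.card s * (vh cG Lr * vr cG Lr * vG cG)) := by
        field_simp
      rw [h7, Real.sqrt_mul (sq_nonneg _), Real.sqrt_sq (by positivity)]
    rw [hD1, ← k6]
    ring
  refine (abs_add_le _ _).trans ?_
  refine (add_le_add (abs_sub _ _) le_rfl).trans ?_
  rw [abs_mul, abs_mul, abs_of_nonneg hθ0, abs_of_nonneg hD0]
  have c3 := mul_le_mul_of_nonneg_left c1' hθ0
  linarith

end main

end Vale.Agent.P146.H161.L2
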