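import Vale.Agent.P146.H161.RowCx
import Vale.Agent.P146.H615.Easm

set_option linter.all false

/-!
From the pointwise row identity (`row_star`) to the averaged identity which is the hypothesis
`hstar` of `H615.easm`, for any set of frozen coordinates `K`, any row `R` and any direction
`cf z` of the row with `Σ_{e ∈ R} cf z e * S e ω = kp * s0 ω * (τ * M(z).s ω + v)`.
-/

open MeasureTheory ProbabilityTheory Filter Topology

namespace Vale.Agent.P146.H161

open Vale.Agent.P157.Lv Vale.Agent.P146.H196 Vale.Agent.P146.H646 Vale.Agent.P146.H615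

variable {ι : Type} [Fintype ι] [DecidableEq ι]

section abs

variable {Ω : Type} [MeasurableSpace Ω] {m : Measure Ω} {S : ι → Ω → ℝ} {M0 : ℝ}

/-- Gibbs averages are thermal averages in the sense of `H615.Av` -/
theorem av_avm (hG : GM m S M0) (k : ℝ) : Av (avm m k S) where
  one z := hG.av_one k z
  add hh hg z := hG.av_add k hh hg z
  smul c h z := av_mul m k S c h z
  mono hh hg hle z := hG.av_mono k hh hg hle z
  bm hh := hG.bm_avm k hh

variable {K K' R : Finset ι} {I : Type*} {T : Finset I} {M : I → (ι → ℝ) → ℝ}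
  {s : I → Ω → ℝ} {s0 a : Ω → ℝ} {x τ v kp : ℝ}

lemma ms_glue (hMd : ∀ j, H646.Dep K (M j)) (z y : ι → ℝ) (ω : Ω) :
    ms T M s (glue K z y) ω = ms T M s z ω := by
  unfold ms
  exact Finset.sum_congr rfl fun j _ => by rw [hMd j z y]

lemma m2_glue (hMd : ∀ j, H646.Dep K (M j)) (z y : ι → ℝ) :
    m2 T M (glue K z y) = m2 T M z := by
  unfold m2
  exact Finset.sum_congr rfl fun j _ => by rw [hMd j z y]

/-- the response in the direction of the row -/
lemma rsg_eq (hG : GM m S M0) (hs : ∀ j, Bd (s j)) (hs0 : Bd s0) (hs1 : ∀ ω, s0 ω ^ 2 = 1)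
    (ha : Bd a) (x τ v kp : ℝ) (z y : ι → ℝ) {Y : Ω → ℝ}
    (hY : ∀ ω, Y ω = kp * (s0 ω * (τ * ms T M s z ω + v))) (hz : ∀ ω, ms T M s y ω = ms T M s z ω)
    (hMz : ∀ j, M j y = M j z) :
    rsg m 1 S x (fun ω => a ω * s0 ω) Y y =
      kp * (τ * (∑ j ∈ T, M j y * Th (avm m 1 S) x a s0 s j y) + v * Tf (avm m 1 S) x a s0 y) := by
  have hA := av_avm hG 1
  have hb := bd_ms (S := T) (M := M) hs y
  have e1 : avm m 1 S (fun ω => a ω * s0 ω * Y ω) y =
      kp * (τ * (∑ j ∈ T, M j y * avm m 1 S (fun ω => a ω * s j ω) y) + v * avm m 1 S a y) := by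
    have h1 : (fun ω => a ω * s0 ω * Y ω) =
        fun ω => kp * (τ * (a ω * ms T M s y ω) + v * a ω) := by
      funext ω
      rw [hY, hz]
      linear_combination (kp * a ω * (τ * ms T M s z ω + v)) * hs1 ω
    rw [h1, hA.smul, hA.add ((ha.mul hb).cmul _) (ha.cmul _), hA.smul, hA.smul, av_ms hA hs ha]
  have e2 : avm m 1 S Y y =
      kp * (τ * (∑ j ∈ T, M j y * avm m 1 S (fun ω => s0 ω * s j ω) y) + v * avm m 1 S s0 y) := by
    have h1 : Y = fun ω => kp * (s0 ω * (τ * ms T M s y ω + v)) := by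
      funext ω
      rw [hY, hz]
    rw [h1, hA.smul]
    have h2 := Rt_eq' (S := T) (M := M) hA hs hs0 τ v y
    unfold Rt at h2
    rw [h2]
  unfold rsg
  rw [e1, e2]
  unfold Th Tf
  simp only [mul_sub, Finset.sum_sub_distrib]
  have e3 : ∑ j ∈ T, M j y * ((1 - x) * (avm m 1 S (fun ω => a ω * s0 ω) y *
      avm m 1 S (fun ω => s0 ω * s j ω) y)) = (1 - x) * avm m 1 S (fun ω => a ω * s0 ω) y *
        ∑ j ∈ T, M j y * avm m 1 S (fun ω => s0 ω * s j ω) y := by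
    rw [Finset.mul_sum]
    exact Finset.sum_congr rfl fun j _ => by ring
  rw [e3]
  ring

/-- the quadratic form in the direction of the row -/
lemma qdg_eq (hG : GM m S M0) (hs1 : ∀ ω, s0 ω ^ 2 = 1) (x τ v kp : ℝ) (z y : ι → ℝ) {Y : Ω → ℝ}
    (hY : ∀ ω, Y ω = kp * (s0 ω * (τ * ms T M s z ω + v)))
    (hz : ∀ ω, ms T M s y ω = ms T M s z ω) :
    qdg m 1 S x Y y =
      kp ^ 2 * (Pt (avm m 1 S) T M s τ v y - (1 - x) * Rt (avm m 1 S) T M s0 s τ v y ^ 2) := by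
  have hA := av_avm hG 1
  have e1 : avm m 1 S (fun ω => Y ω ^ 2) y = kp ^ 2 * Pt (avm m 1 S) T M s τ v y := by
    have h1 : (fun ω => Y ω ^ 2) = fun ω => kp ^ 2 * (τ * ms T M s y ω + v) ^ 2 := by
      funext ω
      rw [hY, hz]
      linear_combination (kp ^ 2 * (τ * ms T M s z ω + v) ^ 2) * hs1 ω
    rw [h1, hA.smul]
    rfl
  have e2 : avm m 1 S Y y = kp * Rt (avm m 1 S) T M s0 s τ v y := by
    have h1 : Y = fun ω => kp * (s0 ω * (τ * ms T M s y ω + v)) := by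
      funext ω
      rw [hY, hz]
    rw [h1, hA.smul]
    rfl
  unfold qdg
  rw [e1, e2]
  ring

lemma cx_congr_glue (w : (ι → ℝ) → ℝ) {Φ Ψ : (ι → ℝ) → ℝ} {z : ι → ℝ}
    (h : ∀ y, Φ (glue K z y) = Ψ (glue K z y)) :
    cx (gg ι) K w Φ z = cx (gg ι) K w Ψ z := by
  unfold cx
  simp only [h]

/-- **The hypothesis `hstar` of `H615.easm`.** -/
theorem hstar_abs (hG : GM m S M0) (x : ℝ) (hKR : Disjoint K R) (hK : K ⊆ K') (hR : R ⊆ K')
    (hs : ∀ j, Bd (s j)) (hs0 : Bd s0) (hs1 : ∀ ω, s0 ω ^ 2 = 1) (ha : Bd a)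
    (hM : ∀ j, BM (M j)) (hMd : ∀ j, H646.Dep K (M j)) (τ v kp : ℝ)
    (cf : (ι → ℝ) → ι → ℝ)
    (hY : ∀ z ω, YS R (cf z) S ω = kp * (s0 ω * (τ * ms T M s z ω + v)))
    (hc : ∀ z, ∑ e ∈ R, cf z e ^ 2 = kp ^ 2 * Yf T M τ v z)
    {φ : (ι → ℝ) → ℝ} (hφ : H646.Dep K φ) (hφb : BM φ) :
    ex (gg ι) (Zxm m 1 S x) (fun z => φ z * cx (gg ι) K' (Zxm m 1 S x)
        (avm m 1 S (fun ω => a ω * s0 ω)) z ^ 2) =
      2 * kp * (τ * ex (gg ι) (Zxm m 1 S x) (fun z => φ z *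
          ∑ j ∈ T, M j z * Th (avm m 1 S) x a s0 s j z) +
        v * ex (gg ι) (Zxm m 1 S x) (fun z => φ z * Tf (avm m 1 S) x a s0 z)) -
      kp ^ 2 * ex (gg ι) (Zxm m 1 S x) (fun z => φ z * Yf T M τ v z) -
      x * kp ^ 2 * (ex (gg ι) (Zxm m 1 S x) (fun z => φ z * Pt (avm m 1 S) T M s τ v z) -
        (1 - x) * ex (gg ι) (Zxm m 1 S x)
          (fun z => φ z * Rt (avm m 1 S) T M s0 s τ v z ^ 2)) +
      ex (gg ι) (Zxm m 1 S x) (fun z => φ z * cx (gg ι) K (Zxm m 1 S x) (fun y =>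
        (cx (gg ι) K' (Zxm m 1 S x) (avm m 1 S (fun ω => a ω * s0 ω)) y -
          lc R (cf z) y) ^ 2) z) := by
  set w := Zxm m 1 S x with hwdef
  have hw : Wt (gg ι) w := hG.wt 1 x
  have hA := av_avm hG 1
  have bN : BM (cx (gg ι) K' w (avm m 1 S (fun ω => a ω * s0 ω))) :=
    hw.bm_cx K' (hG.bm_avm 1 (ha.mul hs0))
  set N := cx (gg ι) K' w (avm m 1 S (fun ω => a ω * s0 ω)) with hN
  set F : (ι → ℝ) → ℝ := fun y => τ * (∑ j ∈ T, M j y * Th (avm m 1 S) x a s0 s j y) +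
    v * Tf (avm m 1 S) x a s0 y with hF
  set Qf : (ι → ℝ) → ℝ := fun y => Pt (avm m 1 S) T M s τ v y -
    (1 - x) * Rt (avm m 1 S) T M s0 s τ v y ^ 2 with hQf
  have bTh : BM fun y => ∑ j ∈ T, M j y * Th (avm m 1 S) x a s0 s j y :=
    BM.sum T fun j _ => (hM j).mul (bm_Th hA hs hM ha hs0 x j)
  have bTf : BM (Tf (avm m 1 S) x a s0) := bm_Tf hA ha hs0 x
  have bF : BM F := (bcm τ bTh).add (bcm v bTf)
  have bP : BM (Pt (avm m 1 S) T M s τ v) := bm_Pt hA hs hM τ v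
  have bR : BM (fun y => Rt (avm m 1 S) T M s0 s τ v y ^ 2) := bsq (bm_Rt hA hs hM hs0 τ v)
  have bQ : BM Qf := bP.sub (bcm (1 - x) bR)
  have bYf : BM (Yf T M τ v) := bm_Y hA hs hM τ v
  have key : ∀ z, cx (gg ι) K w (fun y => N y ^ 2) z
      = 2 * (kp * cx (gg ι) K w F z) - kp ^ 2 * Yf T M τ v z
        - x * kp ^ 2 * cx (gg ι) K w Qf z
        + cx (gg ι) K w (fun y => (N y - lc R (cf z) y) ^ 2) z := by
    intro z
    have h0 := row_star (K := K) (K' := K') (R := R) hG 1 x hKR hK hR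
      (h := fun ω => a ω * s0 ω) (ha.mul hs0) (cf z) z
    have h1 : cx (gg ι) K w (rsg m 1 S x (fun ω => a ω * s0 ω) (YS R (cf z) S)) z
        = kp * cx (gg ι) K w F z := by
      rw [← cx_const_mul hw]
      refine cx_congr_glue w fun y => ?_
      exact rsg_eq hG hs hs0 hs1 ha x τ v kp z (glue K z y) (hY z)
        (fun ω => ms_glue hMd z y ω) (fun j => hMd j z y)
    have h2 : cx (gg ι) K w (qdg m 1 S x (YS R (cf z) S)) z
        = kp ^ 2 * cx (gg ι) K w Qf z := by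
      rw [← cx_const_mul hw]
      refine cx_congr_glue w fun y => ?_
      exact qdg_eq hG hs1 x τ v kp z (glue K z y) (hY z) (fun ω => ms_glue hMd z y ω)
    rw [← hwdef, ← hN, h1, h2, hc] at h0
    rw [h0]
    ring
  have bN2 : BM fun y => N y ^ 2 := bsq bN
  have bcN := hw.bm_cx K bN2
  have bcF := hw.bm_cx K bF
  have bcQ := hw.bm_cx K bQ
  set LT : (ι → ℝ) → ℝ := fun z => cx (gg ι) K w (fun y => (N y - lc R (cf z) y) ^ 2) z with hLT
  have eLT : LT = fun z => (cx (gg ι) K w (fun y => N y ^ 2) z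
      - 2 * kp * cx (gg ι) K w F z) + kp ^ 2 * Yf T M τ v z
        + x * kp ^ 2 * cx (gg ι) K w Qf z := by
    funext z
    rw [key z]
    simp only [hLT]
    ring
  have s1 : ex (gg ι) w (fun z => φ z * N z ^ 2) =
      ex (gg ι) w (fun z => φ z * cx (gg ι) K w (fun y => N y ^ 2) z) :=
    ex_mul_cx hw hφ hφb bN2
  have s2 : ex (gg ι) w (fun z => φ z * F z) =
      ex (gg ι) w (fun z => φ z * cx (gg ι) K w F z) := ex_mul_cx hw hφ hφb bF
  have s3 : ex (gg ι) w (fun z => φ z * Qf z) =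
      ex (gg ι) w (fun z => φ z * cx (gg ι) K w Qf z) := ex_mul_cx hw hφ hφb bQ
  have t2 : ex (gg ι) w (fun z => φ z * F z) =
      τ * ex (gg ι) w (fun z => φ z * ∑ j ∈ T, M j z * Th (avm m 1 S) x a s0 s j z) +
        v * ex (gg ι) w (fun z => φ z * Tf (avm m 1 S) x a s0 z) := by
    have e : (fun z => φ z * F z) = fun z =>
        τ * (φ z * ∑ j ∈ T, M j z * Th (avm m 1 S) x a s0 s j z) +
          v * (φ z * Tf (avm m 1 S) x a s0 z) := by
      funext z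
      simp only [hF]
      ring
    rw [e, ex_add hw (bcm τ (hφb.mul bTh)) (bcm v (hφb.mul bTf)), ex_cmul, ex_cmul]
  have t3 : ex (gg ι) w (fun z => φ z * Qf z) =
      ex (gg ι) w (fun z => φ z * Pt (avm m 1 S) T M s τ v z) -
        (1 - x) * ex (gg ι) w (fun z => φ z * Rt (avm m 1 S) T M s0 s τ v z ^ 2) := by
    have e : (fun z => φ z * Qf z) = fun z => φ z * Pt (avm m 1 S) T M s τ v z -
        (1 - x) * (φ z * Rt (avm m 1 S) T M s0 s τ v z ^ 2) := by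
      funext z
      simp only [hQf]
      ring
    rw [e, ex_sub hw (hφb.mul bP) (bcm _ (hφb.mul bR)), ex_cmul]
  have s4 : ex (gg ι) w (fun z => φ z * LT z) =
      ex (gg ι) w (fun z => φ z * cx (gg ι) K w (fun y => N y ^ 2) z)
        - 2 * kp * ex (gg ι) w (fun z => φ z * cx (gg ι) K w F z)
        + kp ^ 2 * ex (gg ι) w (fun z => φ z * Yf T M τ v z)
        + x * kp ^ 2 * ex (gg ι) w (fun z => φ z * cx (gg ι) K w Qf z) := by
    have e : (fun z => φ z * LT z) = fun z =>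
        ((φ z * cx (gg ι) K w (fun y => N y ^ 2) z
          - (2 * kp) * (φ z * cx (gg ι) K w F z)) + kp ^ 2 * (φ z * Yf T M τ v z))
          + (x * kp ^ 2) * (φ z * cx (gg ι) K w Qf z) := by
      funext z
      rw [eLT]
      ring
    have b1 := hφb.mul bcN
    have b2 := bcm (2 * kp) (hφb.mul bcF)
    have b3 := bcm (kp ^ 2) (hφb.mul bYf)
    have b4 := bcm (x * kp ^ 2) (hφb.mul bcQ)
    rw [e, ex_add hw ((b1.sub b2).add b3) b4, ex_add hw (b1.sub b2) b3, ex_sub hw b1 b2,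
      ex_cmul, ex_cmul, ex_cmul]
  rw [s4, ← s1, ← s2, ← s3, t2, t3]
  ring

end abs

end Vale.Agent.P146.H161
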