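import Vale.Agent.P146.H161.RowW
import Vale.Agent.P146.H196.Gib2

set_option linter.all false

/-!
The row identity in the language of `H646.cx` (block conditioning) and `H196.avm` (Gibbs measure
over a finite measure space), pointwise in the frozen coordinates `K`. `R` is the set of the row
coordinates (disjoint from `K`), `K'` contains `K` and `R`, `N = cx K' w ⟨h⟩`, `c : ι → ℝ` are
arbitrary real coefficients (they may be chosen as functions of the frozen point `z`).
-/

open MeasureTheory ProbabilityTheory Filter Topology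

namespace Vale.Agent.P146.H161

open Vale.Agent.P157.Lv Vale.Agent.P146.H196 Vale.Agent.P146.H646

variable {ι : Type} [Fintype ι] [DecidableEq ι]

/-- the Gaussian coordinates -/
noncomputable abbrev gg (ι : Type) : ι → Measure ℝ := fun _ => gaussianReal 0 1

/-- the levels of `K` -/
def lvK (K : Finset ι) (e : ι) : ℕ := if e ∈ K then 0 else 1

omit [Fintype ι] in
lemma mix_lvK (K : Finset ι) (z w : ι → ℝ) : mix (lvK K) 0 z w = glue K z w := by
  funext e
  unfold mix lvK glue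
  by_cases h : e ∈ K <;> simp [h]

lemma cx_eq_ce (K : Finset ι) (w Ψ : (ι → ℝ) → ℝ) (z : ι → ℝ) :
    cx (gg ι) K w Ψ z = ce (lvK K) 0 w Ψ z := by
  unfold cx ce wn Vale.Agent.P157.Lv.J
  simp only [mix_lvK]

lemma dep_lvK {K : Finset ι} {Q : (ι → ℝ) → ℝ} (h : H646.Dep K Q) : Vale.Agent.P157.Lv.Dep (lvK K) 0 Q := by
  intro z w
  rw [mix_lvK]
  exact h z w

/-- the defining property of the conditional mean, with test functions of exponential growth -/
lemma int_cx_eg {K : Finset ι} {w φ Q : (ι → ℝ) → ℝ} (ew : EG w) (hw : ∀ z, 0 < w z)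
    (eφ : EG φ) {C : ℝ} (hC : ∀ z, |φ z| ≤ C) (hQ : H646.Dep K Q) (eQ : EG Q) :
    ∫ z, cx (gg ι) K w φ z * Q z * w z ∂(gI ι) = ∫ z, φ z * Q z * w z ∂(gI ι) := by
  simp only [cx_eq_ce]
  exact int_ce ew hw eφ hC (dep_lvK hQ) eQ

lemma cx_glue {K K' : Finset ι} (hK : K ⊆ K') (w φ : (ι → ℝ) → ℝ) (z y : ι → ℝ) :
    cx (gg ι) K' (fun y => w (glue K z y)) (fun y => φ (glue K z y)) y
      = cx (gg ι) K' w φ (glue K z y) := by
  unfold cx wn
  simp only [glue_glue_of_subset hK]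

lemma eg_cx {K : Finset ι} {w φ : (ι → ℝ) → ℝ} (ew : EG w) (hw : ∀ z, 0 < w z)
    (eφ : EG φ) {C : ℝ} (hC : ∀ z, |φ z| ≤ C) : EG (cx (gg ι) K w φ) := by
  have : cx (gg ι) K w φ = ce (lvK K) 0 w φ := by
    funext z; exact cx_eq_ce K w φ z
  rw [this]
  exact eg_ce ew hw eφ hC

/-- the linear form `Σ_{e ∈ R} c_e z_e` -/
noncomputable def lc (R : Finset ι) (c : ι → ℝ) (z : ι → ℝ) : ℝ := ∑ e ∈ R, c e * z e

lemma eg_lc (R : Finset ι) (c : ι → ℝ) : EG (lc R c) :=
  EG.sum R fun e _ => (EG.coord e).const_mul (c e)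

lemma lc_glue {K R : Finset ι} (h : Disjoint K R) (c z y : ι → ℝ) :
    lc R c (glue K z y) = lc R c y := by
  unfold lc
  refine Finset.sum_congr rfl fun e he => ?_
  rw [glue_not_mem (Finset.disjoint_right.1 h he)]

lemma dep_lc {K R : Finset ι} (h : R ⊆ K) (c : ι → ℝ) : H646.Dep K (lc R c) := by
  intro z z'
  unfold lc
  refine Finset.sum_congr rfl fun e he => ?_
  rw [glue_mem (h he)]

section cond

variable {K K' R : Finset ι} {w φ : (ι → ℝ) → ℝ} {L φ1 : ι → (ι → ℝ) → ℝ}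
  {L2 : ι → ι → (ι → ℝ) → ℝ} {C : ℝ}

lemma pd_glue {e : ι} (he : e ∉ K) {H H' : (ι → ℝ) → ℝ} (hd : PD e H H') (z : ι → ℝ) :
    PD e (fun y => H (glue K z y)) (fun y => H' (glue K z y)) := by
  intro y t
  simp only [glue_update he]
  exact hd _ _

lemma cx_num (w φ : (ι → ℝ) → ℝ) (z : ι → ℝ) : cx (gg ι) K w φ z
    = (∫ y, φ (glue K z y) * w (glue K z y) ∂(gI ι)) / wn (gg ι) K w z := by
  unfold cx
  congr 1
  refine integral_congr_ae (Eventually.of_forall fun y => ?_)
  simp only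
  ring

/-- **The row identity given the frozen coordinates `K`**, general weight. -/
theorem star_cx (hKR : Disjoint K R) (hK : K ⊆ K') (hR : R ⊆ K') (c : ι → ℝ)
    (hw0 : ∀ z, 0 < w z) (hw : ∀ e ∈ R, PD e w fun z => w z * L e z) (ew : EG w)
    (eL : ∀ e ∈ R, EG (L e))
    (hL : ∀ e ∈ R, ∀ f ∈ R, PD f (L e) (L2 e f)) (eL2 : ∀ e ∈ R, ∀ f ∈ R, EG (L2 e f))
    (hφ : ∀ e ∈ R, PD e φ (φ1 e)) (eφ : EG φ) (hC : ∀ z, |φ z| ≤ C)
    (eφ1 : ∀ e ∈ R, EG (φ1 e)) (z : ι → ℝ) :
    cx (gg ι) K w (fun y => cx (gg ι) K' w φ y ^ 2) z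
      = 2 * cx (gg ι) K w (fun y => ∑ e ∈ R, c e * (φ1 e y + φ y * L e y)) z
        - ∑ e ∈ R, c e ^ 2
        - cx (gg ι) K w (fun y => ∑ e ∈ R, ∑ f ∈ R, c e * c f * (L2 e f y + L e y * L f y)) z
        + cx (gg ι) K w (fun y => (cx (gg ι) K' w φ y - lc R c y) ^ 2) z := by
  have hN : ∀ e ∈ R, e ∉ K := fun e he => Finset.disjoint_right.1 hKR he
  have ewz : EG fun y => w (glue K z y) := eg_glue ew K z
  have eφz : EG fun y => φ (glue K z y) := eg_glue eφ K z
  have ecx : EG (cx (gg ι) K' w φ) := eg_cx ew hw0 eφ hC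
  have eNz : EG fun y => cx (gg ι) K' w φ (glue K z y) := eg_glue ecx K z
  have h0 : ∫ y, cx (gg ι) K' w φ (glue K z y) * lin R (fun e _ => c e) y
        * w (glue K z y) ∂(gI ι)
      = ∫ y, φ (glue K z y) * lin R (fun e _ => c e) y * w (glue K z y) ∂(gI ι) := by
    have h1 := int_cx_eg (K := K') (w := fun y => w (glue K z y)) (φ := fun y => φ (glue K z y))
      (Q := lc R c) ewz (fun y => hw0 _) eφz (fun y => hC _) (dep_lc hR c) (eg_lc R c)
    simp only [cx_glue hK] at h1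
    exact h1
  have hst := star (R := R) (G := fun y => w (glue K z y)) (φ := fun y => φ (glue K z y))
    (L := fun e y => L e (glue K z y)) (φ1 := fun e y => φ1 e (glue K z y))
    (L2 := fun e f y => L2 e f (glue K z y)) (u := fun e _ => c e)
    (N := fun y => cx (gg ι) K' w φ (glue K z y))
    (fun e _ e' _ y r => rfl) (fun e _ => EG.const _)
    (fun e he => pd_glue (hN e he) (hw e he) z) ewz (fun e he => eg_glue (eL e he) K z)
    (fun e he f hf => pd_glue (hN f hf) (hL e he f hf) z)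
    (fun e he f hf => eg_glue (eL2 e he f hf) K z)
    (fun e he => pd_glue (hN e he) (hφ e he) z) eφz (fun e he => eg_glue (eφ1 e he) K z)
    eNz h0
  have hwn : 0 < wn (gg ι) K w z := by
    have h1 := J_pos (lev := lvK K) (l := 0) ew hw0 z
    unfold Vale.Agent.P157.Lv.J at h1
    simp only [mix_lvK] at h1
    exact h1
  have hc2 : ∫ y, (∑ e ∈ R, (c e) ^ 2) * w (glue K z y) ∂(gI ι)
      = (∑ e ∈ R, c e ^ 2) * wn (gg ι) K w z := by
    rw [integral_const_mul]
    rfl
  rw [hc2] at hst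
  rw [cx_num, cx_num, cx_num, cx_num]
  have e1 : ∀ y, resp R (fun e _ => c e) (fun e y => L e (glue K z y))
      (fun e y => φ1 e (glue K z y)) (fun y => φ (glue K z y)) y
      = ∑ e ∈ R, c e * (φ1 e (glue K z y) + φ (glue K z y) * L e (glue K z y)) := fun y => rfl
  have e2 : ∀ y, quad R (fun e _ => c e) (fun e y => L e (glue K z y))
      (fun e f y => L2 e f (glue K z y)) y
      = ∑ e ∈ R, ∑ f ∈ R, c e * c f * (L2 e f (glue K z y)
        + L e (glue K z y) * L f (glue K z y)) := fun y => rfl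
  have e3 : ∀ y, lin R (fun e _ => c e) y = lc R c (glue K z y) := fun y => by
    rw [lc_glue hKR]; rfl
  simp only [e1, e2, e3] at hst
  rw [hst]
  field_simp

end cond

/-! ### Gibbs measures -/

section gibbs

variable {Ω : Type} [MeasurableSpace Ω] {m : Measure Ω} {k : ℝ} {S : ι → Ω → ℝ} {M0 : ℝ}
  {K K' R : Finset ι} {h : Ω → ℝ}

/-- the energy of the direction `c` in the row `R` -/
noncomputable def YS (R : Finset ι) (c : ι → ℝ) (S : ι → Ω → ℝ) (ω : Ω) : ℝ :=
  ∑ e ∈ R, c e * S e ω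

lemma bm_YS (hG : GM m S M0) (R : Finset ι) (c : ι → ℝ) : Bm (YS R c S) :=
  Bm.sum R fun e _ => (hG.bS e).const_mul (c e)

/-- the response of `⟨h⟩` in the direction `c`: `⟨h Y⟩ - (1 - x) ⟨h⟩ ⟨Y⟩` -/
noncomputable def rsg (m : Measure Ω) (k : ℝ) (S : ι → Ω → ℝ) (x : ℝ) (h Y : Ω → ℝ)
    (y : ι → ℝ) : ℝ :=
  avm m k S (fun ω => h ω * Y ω) y - (1 - x) * (avm m k S h y * avm m k S Y y)

/-- the quadratic form in the direction `c`: `⟨Y²⟩ - (1 - x) ⟨Y⟩²` -/
noncomputable def qdg (m : Measure Ω) (k : ℝ) (S : ι → Ω → ℝ) (x : ℝ) (Y : Ω → ℝ)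
    (y : ι → ℝ) : ℝ :=
  avm m k S (fun ω => Y ω ^ 2) y - (1 - x) * avm m k S Y y ^ 2

lemma sum_rsg (hG : GM m S M0) (k x : ℝ) (hh : Bm h) (c y : ι → ℝ) :
    ∑ e ∈ R, c e * (k * (avm m k S (fun w => h w * S e w) y - avm m k S h y * avm m k S (S e) y)
      + avm m k S h y * (x * (k * avm m k S (S e) y)))
      = k * rsg m k S x h (YS R c S) y := by
  have h1 : avm m k S (fun ω => h ω * YS R c S ω) y
      = ∑ e ∈ R, c e * avm m k S (fun w => h w * S e w) y := by
    have e1 : (fun ω => h ω * YS R c S ω) = fun ω => ∑ e ∈ R, c e * (h ω * S e ω) := by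
      funext ω
      unfold YS
      rw [Finset.mul_sum]
      exact Finset.sum_congr rfl fun e _ => by ring
    rw [e1, hG.av_sum k R fun e _ => ((hh.mul (hG.bS e)).const_mul (c e))]
    exact Finset.sum_congr rfl fun e _ => av_mul m k S (c e) (fun ω => h ω * S e ω) y
  have h2 : avm m k S (YS R c S) y = ∑ e ∈ R, c e * avm m k S (S e) y := by
    unfold YS
    rw [hG.av_sum k R fun e _ => ((hG.bS e).const_mul (c e))]
    exact Finset.sum_congr rfl fun e _ => av_mul m k S (c e) (S e) y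
  unfold rsg
  rw [h1, h2, Finset.mul_sum, Finset.mul_sum, ← Finset.sum_sub_distrib, Finset.mul_sum]
  exact Finset.sum_congr rfl fun e _ => by ring

lemma sum_qdg (hG : GM m S M0) (k x : ℝ) (c y : ι → ℝ) :
    ∑ e ∈ R, ∑ f ∈ R, c e * c f * (x * (k * (k * (avm m k S (fun w => S e w * S f w) y
        - avm m k S (S e) y * avm m k S (S f) y)))
      + (x * (k * avm m k S (S e) y)) * (x * (k * avm m k S (S f) y)))
      = k ^ 2 * x * qdg m k S x (YS R c S) y := by
  have h1 : avm m k S (fun ω => YS R c S ω ^ 2) y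
      = ∑ e ∈ R, ∑ f ∈ R, c e * c f * avm m k S (fun w => S e w * S f w) y := by
    have e1 : (fun ω => YS R c S ω ^ 2)
        = fun ω => ∑ e ∈ R, ∑ f ∈ R, (c e * c f) * (S e ω * S f ω) := by
      funext ω
      unfold YS
      rw [sq, Finset.sum_mul_sum]
      exact Finset.sum_congr rfl fun e _ => Finset.sum_congr rfl fun f _ => by ring
    rw [e1, hG.av_sum k R fun e _ => Bm.sum R fun f _ =>
      (((hG.bS e).mul (hG.bS f)).const_mul (c e * c f))]
    refine Finset.sum_congr rfl fun e _ => ?_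
    rw [hG.av_sum k R fun f _ => (((hG.bS e).mul (hG.bS f)).const_mul (c e * c f))]
    exact Finset.sum_congr rfl fun f _ => av_mul m k S (c e * c f) (fun ω => S e ω * S f ω) y
  have h2 : avm m k S (YS R c S) y = ∑ e ∈ R, c e * avm m k S (S e) y := by
    unfold YS
    rw [hG.av_sum k R fun e _ => ((hG.bS e).const_mul (c e))]
    exact Finset.sum_congr rfl fun e _ => av_mul m k S (c e) (S e) y
  unfold qdg
  rw [h1, h2, sq (∑ e ∈ R, _), Finset.sum_mul_sum, Finset.mul_sum, ← Finset.sum_sub_distrib,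
    Finset.mul_sum]
  refine Finset.sum_congr rfl fun e _ => ?_
  rw [Finset.mul_sum, ← Finset.sum_sub_distrib, Finset.mul_sum]
  exact Finset.sum_congr rfl fun f _ => by ring

lemma pd_Zx (hG : GM m S M0) (k x : ℝ) (e : ι) : PD e (Zxm m k S x)
    (fun z => Zxm m k S x z * (x * (k * avm m k S (S e) z))) :=
  (H325.pd_of_fd (hG.fd_Zx k x) e).congr fun y => by ring

/-- **The row identity for the law with density `Z^x`, given the frozen coordinates.** -/
theorem row_star (hG : GM m S M0) (k x : ℝ) (hKR : Disjoint K R) (hK : K ⊆ K') (hR : R ⊆ K')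
    (hh : Bm h) (c z : ι → ℝ) :
    cx (gg ι) K (Zxm m k S x) (fun y => cx (gg ι) K' (Zxm m k S x) (avm m k S h) y ^ 2) z
      = 2 * (k * cx (gg ι) K (Zxm m k S x) (rsg m k S x h (YS R c S)) z)
        - ∑ e ∈ R, c e ^ 2
        - k ^ 2 * x * cx (gg ι) K (Zxm m k S x) (qdg m k S x (YS R c S)) z
        + cx (gg ι) K (Zxm m k S x)
            (fun y => (cx (gg ι) K' (Zxm m k S x) (avm m k S h) y - lc R c y) ^ 2) z := by
  obtain ⟨C, hC, hb⟩ := hh.2
  have h1 := star_cx (K := K) (K' := K') (R := R) (w := Zxm m k S x) (φ := avm m k S h)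
    (L := fun e z => x * (k * avm m k S (S e) z))
    (φ1 := fun e u => k * (avm m k S (fun w => h w * S e w) u
      - avm m k S h u * avm m k S (S e) u))
    (L2 := fun e f u => x * (k * (k * (avm m k S (fun w => S e w * S f w) u
      - avm m k S (S e) u * avm m k S (S f) u)))) (C := C)
    hKR hK hR c (fun z => Zxm_pos x z) (fun e _ => pd_Zx hG k x e) (hG.eg_Zx k x)
    (fun e _ => ((hG.eg_av k (hG.bS e)).const_mul k).const_mul x)
    (fun e _ f _ => ((hG.pd_av k f (hG.bS e)).const_mul k).const_mul x)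
    (fun e _ f _ => ((((hG.eg_av k ((hG.bS e).mul (hG.bS f))).sub
      ((hG.eg_av k (hG.bS e)).mul (hG.eg_av k (hG.bS f)))).const_mul k).const_mul k).const_mul x)
    (fun e _ => hG.pd_av k e hh) (hG.eg_av k hh) (hG.abs_av_le k hh.1 hb)
    (fun e _ => ((hG.eg_av k (hh.mul (hG.bS e))).sub
      ((hG.eg_av k hh).mul (hG.eg_av k (hG.bS e)))).const_mul k) z
  rw [h1]
  simp only [sum_rsg hG k x hh, sum_qdg hG k x]
  have e1 : ∀ (a : ℝ) (f : (ι → ℝ) → ℝ), cx (gg ι) K (Zxm m k S x) (fun y => a * f y) z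
      = a * cx (gg ι) K (Zxm m k S x) f z := by
    intro a f
    unfold cx
    rw [← mul_div_assoc, ← integral_const_mul]
    congr 1
    refine integral_congr_ae (Eventually.of_forall fun y => ?_)
    simp only
    ring
  rw [e1, e1]

end gibbs

end Vale.Agent.P146.H161
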