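import Vale.Agent.P146.H161.RowAbs
import Vale.Agent.P146.H347.Mod4

set_option linter.all false

/-!
The averaged row identity (`hstar` of `H615.easm`) for the modulated SK system of `H347`:
frozen coordinates `Kset S BL FL`, row `Rw i0 S BL FL` of the site `i0 ∉ S`, direction
`cf z` = `kp` times (`b / √n · cB l · M j z` on the bond `(i0, j)` at level `l`, `cF l` on the
field of `i0` at level `l`).
-/

open MeasureTheory ProbabilityTheory Filter Topology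

namespace Vale.Agent.P146.H161

open Vale.Agent.P157.Lv Vale.Agent.P146.H196 Vale.Agent.P146.H646 Vale.Agent.P146.H615
  Vale.Agent.P146.H347 Vale.Agent.P146.H475 Vale.Agent.P146.H816 Vale.Agent.P146.H325

variable {n : ℕ} {LB LF : Type}

/-- the direction of the row of `i0` -/
noncomputable def cfr (i0 : Fin n) (b : ℝ) (cB : LB → ℝ) (cF : LF → ℝ) (kp : ℝ)
    (M : Fin n → (Co n LB LF → ℝ) → ℝ) (z : Co n LB LF → ℝ) : Co n LB LF → ℝ :=
  Sum.elim (Sum.elim (fun e => kp * (b / √n * cB e.2 * M (oth i0 e.1) z))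
    (fun e => kp * cF e.2)) (fun _ => 0)

section cfr

variable (i0 : Fin n) (b : ℝ) (cB : LB → ℝ) (cF : LF → ℝ) (kp : ℝ)
  (M : Fin n → (Co n LB LF → ℝ) → ℝ) (z : Co n LB LF → ℝ)

@[simp] lemma cfr_bd (p : Pair n) (l : LB) : cfr i0 b cB cF kp M z (bd LF p l) =
    kp * (b / √n * cB l * M (oth i0 p) z) := rfl

@[simp] lemma cfr_fd (i : Fin n) (l : LF) : cfr i0 b cB cF kp M z (fd LB i l) = kp * cF l := rfl

@[simp] lemma cfr_gd (i : Fin n) : cfr i0 b cB cF kp M z (gd LB LF i) = 0 := rfl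

end cfr

section inst

variable [Fintype LB] [DecidableEq LB] [Fintype LF] [DecidableEq LF]
  (b : ℝ) (cB : LB → ℝ) (cF : LF → ℝ) (s η : ℝ) {i0 : Fin n} {S : Finset (Fin n)}
  (BL : Finset LB) (FL : Finset LF)

/-- the energy of the direction of the row -/
theorem ys_cfr (hi : i0 ∉ S) (kp : ℝ) (M : Fin n → (Co n LB LF → ℝ) → ℝ)
    (z : Co n LB LF → ℝ) (ω : ℝ × Xs n) :
    YS (Rw i0 S BL FL) (cfr i0 b cB cF kp M z) (Sm b cB cF s η) ω =
      kp * (sp ω.2 i0 * (b ^ 2 / n * (∑ l ∈ BL, cB l ^ 2) *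
        ms S M (fun j (ω : ℝ × Xs n) => sp ω.2 j) z ω + ∑ l ∈ FL, cF l ^ 2)) := by
  unfold YS
  rw [sum_Rw' hi _ (fun j l => kp * sp ω.2 i0 * (b ^ 2 / n * cB l ^ 2 * (M j z * sp ω.2 j)))]
  · rw [show kp * (sp ω.2 i0 * (b ^ 2 / n * (∑ l ∈ BL, cB l ^ 2) *
        ms S M (fun j (ω : ℝ × Xs n) => sp ω.2 j) z ω + ∑ l ∈ FL, cF l ^ 2)) =
        kp * sp ω.2 i0 * (b ^ 2 / n * (∑ l ∈ BL, cB l ^ 2) *
        ms S M (fun j (ω : ℝ × Xs n) => sp ω.2 j) z ω) +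
        kp * sp ω.2 i0 * ∑ l ∈ FL, cF l ^ 2 by ring]
    congr 1
    · unfold ms
      rw [Finset.mul_sum, Finset.mul_sum]
      refine Finset.sum_congr rfl fun j _ => ?_
      rw [Finset.mul_sum, Finset.sum_mul, Finset.mul_sum]
    · rw [Finset.mul_sum]
      refine Finset.sum_congr rfl fun l _ => ?_
      rw [cfr_fd, Sm_fd]
      ring
  · intro p hp _ l _
    rw [cfr_bd, Sm_bd b cB cF s η hp, ← div_sqrt_sq]
    ring

/-- the norm of the direction of the row -/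
theorem sq_cfr (hi : i0 ∉ S) (kp : ℝ) (M : Fin n → (Co n LB LF → ℝ) → ℝ)
    (z : Co n LB LF → ℝ) :
    ∑ e ∈ Rw i0 S BL FL, cfr i0 b cB cF kp M z e ^ 2 =
      kp ^ 2 * Yf S M (b ^ 2 / n * ∑ l ∈ BL, cB l ^ 2) (∑ l ∈ FL, cF l ^ 2) z := by
  rw [sum_Rw' hi _ (fun j l => kp ^ 2 * (b ^ 2 / n * cB l ^ 2 * M j z ^ 2))]
  · unfold Yf m2
    rw [mul_add]
    congr 1
    · rw [Finset.mul_sum, Finset.mul_sum]
      refine Finset.sum_congr rfl fun j _ => ?_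
      rw [Finset.mul_sum, Finset.sum_mul, Finset.mul_sum]
    · rw [Finset.mul_sum]
      refine Finset.sum_congr rfl fun l _ => ?_
      rw [cfr_fd]
      ring
  · intro p hp _ l _
    rw [cfr_bd, ← div_sqrt_sq]
    ring

lemma bd_of_bm {Ω : Type} [MeasurableSpace Ω] {h : Ω → ℝ} (hh : Bm h) : Bd h := hh

/-- **The hypothesis `hstar` of `H615.easm` at the modulated SK system.** -/
theorem hstar_kset {lam : ℝ} (hl : 0 < lam) {η : ℝ} (hη : 0 ≤ η) (c x : ℝ) (hi : i0 ∉ S)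
    (M : Fin n → (Co n LB LF → ℝ) → ℝ) (hM : ∀ j, BM (M j))
    (hMd : ∀ j, H646.Dep (Kset S BL FL) (M j)) (kp : ℝ) {φ : (Co n LB LF → ℝ) → ℝ}
    (hφ : H646.Dep (Kset S BL FL) φ) (hφb : BM φ) {τ v : ℝ}
    (hτ : τ = b ^ 2 / n * ∑ l ∈ BL, cB l ^ 2) (hv : v = ∑ l ∈ FL, cF l ^ 2)
    {w : (Co n LB LF → ℝ) → ℝ} (hw : w = Zxm (muA (Xs n) lam η c) 1 (Sm b cB cF s η) x)
    {av : (ℝ × Xs n → ℝ) → (Co n LB LF → ℝ) → ℝ}
    (hav : av = avm (muA (Xs n) lam η c) 1 (Sm b cB cF s η))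
    {a s0 : ℝ × Xs n → ℝ} (ha : a = fun ω => al η ω.1) (hs0 : s0 = fun ω => sp ω.2 i0)
    {σ : Fin n → ℝ × Xs n → ℝ} (hσ : σ = fun j ω => sp ω.2 j) :
    ex (g1 _) w (fun z => φ z * cx (g1 _) (Kset (insert i0 S) BL FL) w
        (av (fun ω => a ω * s0 ω)) z ^ 2) =
      2 * kp * (τ * ex (g1 _) w (fun z => φ z * ∑ j ∈ S, M j z * Th av x a s0 σ j z) +
        v * ex (g1 _) w (fun z => φ z * Tf av x a s0 z)) -
      kp ^ 2 * ex (g1 _) w (fun z => φ z * Yf S M τ v z) -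
      x * kp ^ 2 * (ex (g1 _) w (fun z => φ z * Pt av S M σ τ v z) -
        (1 - x) * ex (g1 _) w (fun z => φ z * Rt av S M s0 σ τ v z ^ 2)) +
      ex (g1 _) w (fun z => φ z * cx (g1 _) (Kset S BL FL) w (fun y =>
        (cx (g1 _) (Kset (insert i0 S) BL FL) w (av (fun ω => a ω * s0 ω)) y -
          lc (Rw i0 S BL FL) (cfr i0 b cB cF kp M z) y) ^ 2) z) := by
  subst hτ hv hw hav ha hs0 hσ
  have hR : Rw i0 S BL FL ⊆ Kset (insert i0 S) BL FL := by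
    rw [← Rw_union hi]
    exact Finset.subset_union_right
  have hKK : Kset S BL FL ⊆ Kset (LB := LB) (LF := LF) (insert i0 S) BL FL :=
    Kset_mono (Finset.subset_insert i0 S) (Finset.Subset.refl _) (Finset.Subset.refl _)
  have h1 : ∀ j : Fin n, Bd fun ω : ℝ × Xs n => sp ω.2 j := fun j => bm_sp j
  have h2 : Bd fun ω : ℝ × Xs n => al η ω.1 := bm_of_al (n := n) hη
  have h3 : ∀ ω : ℝ × Xs n, (fun ω : ℝ × Xs n => sp ω.2 i0) ω ^ 2 = 1 := fun ω => by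
    show sp ω.2 i0 ^ 2 = 1
    rw [sq]
    exact sp_mul_self ω.2 i0
  have h4 := hstar_abs (T := S) (M := M) (s := fun j (ω : ℝ × Xs n) => sp ω.2 j)
    (s0 := fun ω : ℝ × Xs n => sp ω.2 i0) (a := fun ω : ℝ × Xs n => al η ω.1)
    (gmA (n := n) b cB cF s hl hη c) x (Rw_disj hi) hKK hR
    h1 (h1 i0) h3 h2 hM hMd (b ^ 2 / n * ∑ l ∈ BL, cB l ^ 2) (∑ l ∈ FL, cF l ^ 2) kp
    (cfr i0 b cB cF kp M)
    (fun z ω => ys_cfr b cB cF s η BL FL hi kp M z ω)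
    (fun z => sq_cfr b cB cF BL FL hi kp M z) hφ hφb
  exact h4

end inst

end Vale.Agent.P146.H161
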