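import Vale.Agent.P146.H161.RowInst
import Vale.Agent.P146.H281.U1

set_option linter.all false

/-!
The averaged row identity (`hstar` of `H615.easm` / `easm2`) for the ensemble `U` of `H281.U1`:
frozen coordinates `Kset S BL FL`, row `Rw i0 S BL FL` of the site `i0 ∉ S`; the direction is
`kp` times (`b / √n · cB l · M j z` on the bond `(i0, j)` at level `l`, `cF l` on the field of `i0`
at the level `l ∈ FP`, `0` at the other field levels), where `FP ⊆ FL` is a set of plain levels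
(`a l = 1` for `l ∈ FP`). So `FL` may contain modulated levels.
-/

open MeasureTheory ProbabilityTheory Filter Topology

namespace Vale.Agent.P146.H161

open Vale.Agent.P157.Lv Vale.Agent.P146.H196 Vale.Agent.P146.H646 Vale.Agent.P146.H615
  Vale.Agent.P146.H347 Vale.Agent.P146.H475 Vale.Agent.P146.H816 Vale.Agent.P146.H325
  Vale.Agent.P146.H281.U

variable {n : ℕ} {LB LF : Type} {Th : Type} [MeasurableSpace Th]

/-- the coefficients of the field levels: `cF` on `FP`, `0` off `FP` -/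
noncomputable def cFr [DecidableEq LF] (cF : LF → ℝ) (FP : Finset LF) (l : LF) : ℝ :=
  if l ∈ FP then cF l else 0

section inst

variable [Fintype LB] [DecidableEq LB] [Fintype LF] [DecidableEq LF]
  (b : ℝ) (cB : LB → ℝ) (cF : LF → ℝ) (a : LF → Th → ℝ) {i0 : Fin n} {S : Finset (Fin n)}
  (BL : Finset LB) (FL FP : Finset LF)

lemma sum_cFr (hFP : FP ⊆ FL) : ∑ l ∈ FL, cFr cF FP l ^ 2 = ∑ l ∈ FP, cF l ^ 2 := by
  unfold cFr
  rw [← Finset.sum_subset hFP]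
  · exact Finset.sum_congr rfl fun l hl => by rw [if_pos hl]
  · intro l _ hl
    rw [if_neg hl]
    ring

/-- the energy of the direction of the row -/
theorem ys_cfrU (hi : i0 ∉ S) (hFP : FP ⊆ FL) (ha : ∀ l ∈ FP, ∀ θ, a l θ = 1) (kp : ℝ)
    (M : Fin n → (Co n LB LF → ℝ) → ℝ) (z : Co n LB LF → ℝ) (ω : Th × Xs n) :
    YS (Rw i0 S BL FL) (cfr i0 b cB (cFr cF FP) kp M z) (SU b cB cF a) ω =
      kp * (sp ω.2 i0 * (b ^ 2 / n * (∑ l ∈ BL, cB l ^ 2) *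
        ms S M (fun j (ω : Th × Xs n) => sp ω.2 j) z ω + ∑ l ∈ FP, cF l ^ 2)) := by
  unfold YS
  rw [sum_Rw' hi _ (fun j l => kp * sp ω.2 i0 * (b ^ 2 / n * cB l ^ 2 * (M j z * sp ω.2 j)))]
  · rw [show kp * (sp ω.2 i0 * (b ^ 2 / n * (∑ l ∈ BL, cB l ^ 2) *
        ms S M (fun j (ω : Th × Xs n) => sp ω.2 j) z ω + ∑ l ∈ FP, cF l ^ 2)) =
        kp * sp ω.2 i0 * (b ^ 2 / n * (∑ l ∈ BL, cB l ^ 2) *
        ms S M (fun j (ω : Th × Xs n) => sp ω.2 j) z ω) +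
        kp * sp ω.2 i0 * ∑ l ∈ FP, cF l ^ 2 by ring]
    congr 1
    · unfold ms
      rw [Finset.mul_sum, Finset.mul_sum]
      refine Finset.sum_congr rfl fun j _ => ?_
      rw [Finset.mul_sum, Finset.sum_mul, Finset.mul_sum]
    · rw [← sum_cFr cF FL FP hFP, Finset.mul_sum]
      refine Finset.sum_congr rfl fun l _ => ?_
      rw [cfr_fd, SU_fd]
      unfold cFr
      split_ifs with h
      · rw [ha l h]
        ring
      · ring
  · intro p hp _ l _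
    rw [cfr_bd, SU_bd, SkS_oth hp, ← div_sqrt_sq]
    unfold pr
    ring

/-- the norm of the direction of the row -/
theorem sq_cfrU (hi : i0 ∉ S) (hFP : FP ⊆ FL) (kp : ℝ)
    (M : Fin n → (Co n LB LF → ℝ) → ℝ) (z : Co n LB LF → ℝ) :
    ∑ e ∈ Rw i0 S BL FL, cfr i0 b cB (cFr cF FP) kp M z e ^ 2 =
      kp ^ 2 * Yf S M (b ^ 2 / n * ∑ l ∈ BL, cB l ^ 2) (∑ l ∈ FP, cF l ^ 2) z := by
  rw [sq_cfr b cB (cFr cF FP) BL FL hi kp M z, sum_cFr cF FL FP hFP]

lemma measurable_spU (j : Fin n) : Measurable fun w : Th × Xs n => sp w.2 j := by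
  have := dmx n
  exact (Measurable.of_discrete (f := fun σ : Xs n => sp σ j)).comp measurable_snd

lemma bd_spU (j : Fin n) : Bd fun w : Th × Xs n => sp w.2 j :=
  Bm.of (measurable_spU j) (C := 1) fun w => H281.U.abs_sp w.2 j

lemma bd_ampU {r : Th → ℝ} (hr : Measurable r) {η : ℝ} (hrη : ∀ θ, |r θ - 1| ≤ η) :
    Bd fun w : Th × Xs n => r w.1 :=
  Bm.of (hr.comp measurable_fst) (C := 1 + η) fun w => by
    have h1 := abs_le.1 (hrη w.1)
    have h0 := (abs_nonneg _).trans (hrη w.1)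
    rw [abs_le]
    constructor <;> linarith [h1.1, h1.2]

/-- **The hypothesis `hstar` of `H615.easm` for the ensemble `U`.** -/
theorem hstar_U {ν : Measure Th} (hν : IsFiniteMeasure ν) (h0 : ν ≠ 0) {η : ℝ}
    (hA : AmU a η) (x : ℝ) (hi : i0 ∉ S) (hFP : FP ⊆ FL) (ha1 : ∀ l ∈ FP, ∀ θ, a l θ = 1)
    (M : Fin n → (Co n LB LF → ℝ) → ℝ) (hM : ∀ j, BM (M j))
    (hMd : ∀ j, H646.Dep (Kset S BL FL) (M j)) (kp : ℝ) {φ : (Co n LB LF → ℝ) → ℝ}
    (hφ : H646.Dep (Kset S BL FL) φ) (hφb : BM φ) {τ v : ℝ}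
    (hτ : τ = b ^ 2 / n * ∑ l ∈ BL, cB l ^ 2) (hv : v = ∑ l ∈ FP, cF l ^ 2)
    {w : (Co n LB LF → ℝ) → ℝ} (hw : w = Zxm (muU ν n) 1 (SU b cB cF a) x)
    {av : (Th × Xs n → ℝ) → (Co n LB LF → ℝ) → ℝ}
    (hav : av = avm (muU ν n) 1 (SU b cB cF a)) {r : Th → ℝ} (hr : Measurable r)
    (hrη : ∀ θ, |r θ - 1| ≤ η)
    {q s0 : Th × Xs n → ℝ} (hq : q = fun ω => r ω.1) (hs0 : s0 = fun ω => sp ω.2 i0)
    {σ : Fin n → Th × Xs n → ℝ} (hσ : σ = fun j ω => sp ω.2 j) :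
    ex (g1 _) w (fun z => φ z * cx (g1 _) (Kset (insert i0 S) BL FL) w
        (av (fun ω => q ω * s0 ω)) z ^ 2) =
      2 * kp * (τ * ex (g1 _) w (fun z => φ z * ∑ j ∈ S, M j z * H615.Th av x q s0 σ j z) +
        v * ex (g1 _) w (fun z => φ z * Tf av x q s0 z)) -
      kp ^ 2 * ex (g1 _) w (fun z => φ z * Yf S M τ v z) -
      x * kp ^ 2 * (ex (g1 _) w (fun z => φ z * Pt av S M σ τ v z) -
        (1 - x) * ex (g1 _) w (fun z => φ z * Rt av S M s0 σ τ v z ^ 2)) +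
      ex (g1 _) w (fun z => φ z * cx (g1 _) (Kset S BL FL) w (fun y =>
        (cx (g1 _) (Kset (insert i0 S) BL FL) w (av (fun ω => q ω * s0 ω)) y -
          lc (Rw i0 S BL FL) (cfr i0 b cB (cFr cF FP) kp M z) y) ^ 2) z) := by
  subst hτ hv hw hav hq hs0 hσ
  have hR : Rw i0 S BL FL ⊆ Kset (insert i0 S) BL FL := by
    rw [← Rw_union hi]
    exact Finset.subset_union_right
  have hKK : Kset S BL FL ⊆ Kset (LB := LB) (LF := LF) (insert i0 S) BL FL :=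
    Kset_mono (Finset.subset_insert i0 S) (Finset.Subset.refl _) (Finset.Subset.refl _)
  have h1 : ∀ j : Fin n, Bd fun ω : Th × Xs n => sp ω.2 j := fun j => bd_spU j
  have h2 : Bd fun ω : Th × Xs n => r ω.1 := bd_ampU hr hrη
  have h3 : ∀ ω : Th × Xs n, (fun ω : Th × Xs n => sp ω.2 i0) ω ^ 2 = 1 := fun ω => by
    show sp ω.2 i0 ^ 2 = 1
    rw [sq]
    exact sp_mul_self ω.2 i0
  have h4 := hstar_abs (T := S) (M := M) (s := fun j (ω : Th × Xs n) => sp ω.2 j)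
    (s0 := fun ω : Th × Xs n => sp ω.2 i0) (a := fun ω : Th × Xs n => r ω.1)
    (gmU (n := n) b cB cF η hν h0 hA) x (Rw_disj hi) hKK hR
    h1 (h1 i0) h3 h2 hM hMd (b ^ 2 / n * ∑ l ∈ BL, cB l ^ 2) (∑ l ∈ FP, cF l ^ 2) kp
    (cfr i0 b cB (cFr cF FP) kp M)
    (fun z ω => ys_cfrU b cB cF a BL FL FP hi hFP ha1 kp M z ω)
    (fun z => sq_cfrU b cB cF BL FL FP hi hFP kp M z) hφ hφb
  exact h4

end inst

end Vale.Agent.P146.H161
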