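import Vale.Agent.P146.Bdl.B2

set_option linter.all false

/-!
The row identity: two Gaussian integrations by parts in the coordinates of a finite set `R` (the
row of a hidden site), tested with functions `u e` that do not depend on the coordinates in `R`.
The weight `G` is arbitrary (`G = exp (x F)`), `L e` is its logarithmic derivative.
* `ibp1` : `∫ φ (Σ u_e z_e) G = Σ ∫ u_e (∂_e φ + φ L_e) G`;
* `ibp2` : `∫ (Σ u_e z_e)² G = ∫ (Σ u_e²) G + ΣΣ ∫ u_e u_f (∂_f L_e + L_e L_f) G`;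
* `star` : the exact identity for `∫ N² G`, `N` a conditional average of `φ`;
* `bessel` : the lower bound.
-/

open MeasureTheory ProbabilityTheory Filter Topology

namespace Vale.Agent.P146.H161

open Vale.Agent.P157.Lv

variable {κ : Type} [Fintype κ] [DecidableEq κ]

/-- `u` does not depend on the coordinates in `R`. -/
def Nd (R : Finset κ) (u : (κ → ℝ) → ℝ) : Prop :=
  ∀ e ∈ R, ∀ z r, u (Function.update z e r) = u z

variable {R : Finset κ}

omit [Fintype κ] in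
lemma Nd.pd {u : (κ → ℝ) → ℝ} (h : Nd R u) {e : κ} (he : e ∈ R) : PD e u (fun _ => 0) := by
  intro y x
  have : (fun t => u (Function.update y e t)) = fun _ => u y := by
    funext t; exact h e he y t
  rw [this]
  exact hasDerivAt_const x _

omit [Fintype κ] in
lemma Nd.mul {u v : (κ → ℝ) → ℝ} (hu : Nd R u) (hv : Nd R v) : Nd R fun z => u z * v z := by
  intro e he z r
  simp only [hu e he z r, hv e he z r]

variable {G φ : (κ → ℝ) → ℝ} {L φ1 : κ → (κ → ℝ) → ℝ} {L2 : κ → κ → (κ → ℝ) → ℝ}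
  {u : κ → (κ → ℝ) → ℝ}

/-- integration by parts in one coordinate, tested with a function that does not depend on it -/
lemma ibp0 {e : κ} (he : e ∈ R) {v : (κ → ℝ) → ℝ} {φ1e Le : (κ → ℝ) → ℝ}
    (hv : Nd R v) (ev : EG v)
    (hG : PD e G fun z => G z * Le z) (eG : EG G) (eL : EG Le)
    (hφ : PD e φ φ1e) (eφ : EG φ) (eφ1 : EG φ1e) :
    ∫ z, v z * (z e * φ z) * G z ∂(gI κ) = ∫ z, v z * (φ1e z + φ z * Le z) * G z ∂(gI κ) := by
  have h1 : PD e (fun z => v z * (φ z * G z))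
      (fun z => 0 * (φ z * G z) + v z * (φ1e z * G z + φ z * (G z * Le z))) :=
    (hv.pd he).mul (hφ.mul hG)
  have e1 : EG fun z => v z * (φ z * G z) := ev.mul (eφ.mul eG)
  have e2 : EG fun z => 0 * (φ z * G z) + v z * (φ1e z * G z + φ z * (G z * Le z)) :=
    ((eφ.mul eG).const_mul 0).add (ev.mul ((eφ1.mul eG).add (eφ.mul (eG.mul eL))))
  have h2 := h1.stein e1 e2
  calc ∫ z, v z * (z e * φ z) * G z ∂(gI κ)
      = ∫ z, z e * (v z * (φ z * G z)) ∂(gI κ) := by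
        refine integral_congr_ae (Eventually.of_forall fun z => ?_)
        simp only
        ring
    _ = _ := h2
    _ = _ := by
        refine integral_congr_ae (Eventually.of_forall fun z => ?_)
        simp only
        ring

/-- **first integration by parts** -/
theorem ibp1 (hu : ∀ e ∈ R, Nd R (u e)) (eu : ∀ e ∈ R, EG (u e))
    (hG : ∀ e ∈ R, PD e G fun z => G z * L e z) (eG : EG G) (eL : ∀ e ∈ R, EG (L e))
    (hφ : ∀ e ∈ R, PD e φ (φ1 e)) (eφ : EG φ) (eφ1 : ∀ e ∈ R, EG (φ1 e)) :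
    ∫ z, φ z * (∑ e ∈ R, u e z * z e) * G z ∂(gI κ)
      = ∑ e ∈ R, ∫ z, u e z * (φ1 e z + φ z * L e z) * G z ∂(gI κ) := by
  have h1 : ∀ z, φ z * (∑ e ∈ R, u e z * z e) * G z
      = ∑ e ∈ R, u e z * (z e * φ z) * G z := by
    intro z
    rw [Finset.mul_sum, Finset.sum_mul]
    exact Finset.sum_congr rfl fun e _ => by ring
  simp only [h1]
  rw [integral_finset_sum _ fun e he =>
    (((eu e he).mul ((EG.coord e).mul eφ)).mul eG).integrable]
  exact Finset.sum_congr rfl fun e he =>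
    ibp0 he (hu e he) (eu e he) (hG e he) eG (eL e he) (hφ e he) eφ (eφ1 e he)

/-- the linear form in the row -/
noncomputable def lin (R : Finset κ) (u : κ → (κ → ℝ) → ℝ) (z : κ → ℝ) : ℝ :=
  ∑ e ∈ R, u e z * z e

lemma eg_lin (eu : ∀ e ∈ R, EG (u e)) : EG (lin R u) :=
  EG.sum R fun e he => (eu e he).mul (EG.coord e)

lemma pd_lin (hu : ∀ e ∈ R, Nd R (u e)) {e : κ} (he : e ∈ R) : PD e (lin R u) (u e) := by
  have h1 : PD e (fun z => ∑ f ∈ R, u f z * z f)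
      (fun z => ∑ f ∈ R, (0 * z f + u f z * if f = e then 1 else 0)) :=
    PD.sum R fun f hf => ((hu f hf).pd he).mul (PD.coord f)
  refine h1.congr fun y => ?_
  simp only [zero_mul, zero_add, mul_ite, mul_one, mul_zero]
  rw [Finset.sum_ite_eq' R e fun f => u f y, if_pos he]

/-- **second integration by parts** -/
theorem ibp2 (hu : ∀ e ∈ R, Nd R (u e)) (eu : ∀ e ∈ R, EG (u e))
    (hG : ∀ e ∈ R, PD e G fun z => G z * L e z) (eG : EG G) (eL : ∀ e ∈ R, EG (L e))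
    (hL : ∀ e ∈ R, ∀ f ∈ R, PD f (L e) (L2 e f)) (eL2 : ∀ e ∈ R, ∀ f ∈ R, EG (L2 e f)) :
    ∫ z, (lin R u z) ^ 2 * G z ∂(gI κ)
      = (∑ e ∈ R, ∫ z, u e z ^ 2 * G z ∂(gI κ))
        + ∑ e ∈ R, ∑ f ∈ R, ∫ z, u e z * u f z * (L2 e f z + L e z * L f z) * G z ∂(gI κ) := by
  have elin := eg_lin (R := R) eu
  have h1 : ∫ z, (lin R u z) ^ 2 * G z ∂(gI κ)
      = ∑ e ∈ R, ∫ z, u e z * (u e z + lin R u z * L e z) * G z ∂(gI κ) := by
    have := ibp1 (R := R) (u := u) (G := G) (L := L) (φ := lin R u) (φ1 := u) hu eu hG eG eL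
      (fun e he => pd_lin hu he) elin eu
    rw [← this]
    refine integral_congr_ae (Eventually.of_forall fun z => ?_)
    simp only [lin]
    ring
  rw [h1, ← Finset.sum_add_distrib]
  refine Finset.sum_congr rfl fun e he => ?_
  have h2 : ∫ z, L e z * (∑ f ∈ R, (u e z * u f z) * z f) * G z ∂(gI κ)
      = ∑ f ∈ R, ∫ z, (u e z * u f z) * (L2 e f z + L e z * L f z) * G z ∂(gI κ) :=
    ibp1 (R := R) (u := fun f z => u e z * u f z) (φ := L e) (φ1 := L2 e)
      (fun f hf => (hu e he).mul (hu f hf)) (fun f hf => (eu e he).mul (eu f hf)) hG eG eL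
      (fun f hf => hL e he f hf) (eL e he) (fun f hf => eL2 e he f hf)
  rw [← h2, ← integral_add]
  · refine integral_congr_ae (Eventually.of_forall fun z => ?_)
    have h3 : (∑ f ∈ R, (u e z * u f z) * z f) = u e z * lin R u z := by
      unfold lin
      rw [Finset.mul_sum]
      exact Finset.sum_congr rfl fun f _ => by ring
    simp only [h3]
    ring
  · exact (((eu e he).pow 2).mul eG).integrable
  · refine (((eL e he).mul (EG.sum R fun f hf =>
      ((eu e he).mul (eu f hf)).mul (EG.coord f))).mul eG).integrable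

/-- the quadratic form of the second integration by parts -/
noncomputable def quad (R : Finset κ) (u L : κ → (κ → ℝ) → ℝ) (L2 : κ → κ → (κ → ℝ) → ℝ)
    (z : κ → ℝ) : ℝ :=
  ∑ e ∈ R, ∑ f ∈ R, u e z * u f z * (L2 e f z + L e z * L f z)

/-- the response form -/
noncomputable def resp (R : Finset κ) (u L φ1 : κ → (κ → ℝ) → ℝ) (φ : (κ → ℝ) → ℝ)
    (z : κ → ℝ) : ℝ :=
  ∑ e ∈ R, u e z * (φ1 e z + φ z * L e z)

lemma eg_quad (eu : ∀ e ∈ R, EG (u e)) (eL : ∀ e ∈ R, EG (L e))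
    (eL2 : ∀ e ∈ R, ∀ f ∈ R, EG (L2 e f)) : EG (quad R u L L2) :=
  EG.sum R fun e he => EG.sum R fun f hf => ((eu e he).mul (eu f hf)).mul
    ((eL2 e he f hf).add ((eL e he).mul (eL f hf)))

lemma eg_resp (eu : ∀ e ∈ R, EG (u e)) (eL : ∀ e ∈ R, EG (L e))
    (eφ : EG φ) (eφ1 : ∀ e ∈ R, EG (φ1 e)) : EG (resp R u L φ1 φ) :=
  EG.sum R fun e he => (eu e he).mul ((eφ1 e he).add (eφ.mul (eL e he)))

theorem ibp1' (hu : ∀ e ∈ R, Nd R (u e)) (eu : ∀ e ∈ R, EG (u e))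
    (hG : ∀ e ∈ R, PD e G fun z => G z * L e z) (eG : EG G) (eL : ∀ e ∈ R, EG (L e))
    (hφ : ∀ e ∈ R, PD e φ (φ1 e)) (eφ : EG φ) (eφ1 : ∀ e ∈ R, EG (φ1 e)) :
    ∫ z, φ z * lin R u z * G z ∂(gI κ) = ∫ z, resp R u L φ1 φ z * G z ∂(gI κ) := by
  have h := ibp1 hu eu hG eG eL hφ eφ eφ1
  unfold lin
  rw [h, ← integral_finset_sum _ fun e he =>
    (((eu e he).mul ((eφ1 e he).add (eφ.mul (eL e he)))).mul eG).integrable]
  refine integral_congr_ae (Eventually.of_forall fun z => ?_)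
  simp only [resp, Finset.sum_mul]

theorem ibp2' (hu : ∀ e ∈ R, Nd R (u e)) (eu : ∀ e ∈ R, EG (u e))
    (hG : ∀ e ∈ R, PD e G fun z => G z * L e z) (eG : EG G) (eL : ∀ e ∈ R, EG (L e))
    (hL : ∀ e ∈ R, ∀ f ∈ R, PD f (L e) (L2 e f)) (eL2 : ∀ e ∈ R, ∀ f ∈ R, EG (L2 e f)) :
    ∫ z, (lin R u z) ^ 2 * G z ∂(gI κ)
      = ∫ z, (∑ e ∈ R, u e z ^ 2) * G z ∂(gI κ) + ∫ z, quad R u L L2 z * G z ∂(gI κ) := by
  rw [ibp2 hu eu hG eG eL hL eL2]
  congr 1
  · rw [← integral_finset_sum _ fun e he => (((eu e he).pow 2).mul eG).integrable]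
    refine integral_congr_ae (Eventually.of_forall fun z => ?_)
    simp only [Finset.sum_mul]
  · have h1 : ∀ z, quad R u L L2 z * G z
        = ∑ e ∈ R, ∑ f ∈ R, u e z * u f z * (L2 e f z + L e z * L f z) * G z := by
      intro z
      simp only [quad, Finset.sum_mul]
    simp only [h1]
    rw [integral_finset_sum _ fun e he => (EG.sum R fun f hf => (((eu e he).mul (eu f hf)).mul
      ((eL2 e he f hf).add ((eL e he).mul (eL f hf)))).mul eG).integrable]
    refine Finset.sum_congr rfl fun e he => ?_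
    rw [integral_finset_sum _ fun f hf => ((((eu e he).mul (eu f hf)).mul
      ((eL2 e he f hf).add ((eL e he).mul (eL f hf)))).mul eG).integrable]

/-- **the row identity (★)**: `N` is any function with the same correlation with the row form as
`φ` (the conditional average of `φ` given the frozen coordinates and the row). -/
theorem star (hu : ∀ e ∈ R, Nd R (u e)) (eu : ∀ e ∈ R, EG (u e))
    (hG : ∀ e ∈ R, PD e G fun z => G z * L e z) (eG : EG G) (eL : ∀ e ∈ R, EG (L e))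
    (hL : ∀ e ∈ R, ∀ f ∈ R, PD f (L e) (L2 e f)) (eL2 : ∀ e ∈ R, ∀ f ∈ R, EG (L2 e f))
    (hφ : ∀ e ∈ R, PD e φ (φ1 e)) (eφ : EG φ) (eφ1 : ∀ e ∈ R, EG (φ1 e))
    {N : (κ → ℝ) → ℝ} (eN : EG N)
    (hN : ∫ z, N z * lin R u z * G z ∂(gI κ) = ∫ z, φ z * lin R u z * G z ∂(gI κ)) :
    ∫ z, N z ^ 2 * G z ∂(gI κ)
      = 2 * ∫ z, resp R u L φ1 φ z * G z ∂(gI κ)
        - ∫ z, (∑ e ∈ R, u e z ^ 2) * G z ∂(gI κ)
        - ∫ z, quad R u L L2 z * G z ∂(gI κ)
        + ∫ z, (N z - lin R u z) ^ 2 * G z ∂(gI κ) := by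
  have elin := eg_lin (R := R) eu
  have h1 := ibp1' hu eu hG eG eL hφ eφ eφ1
  have h2 := ibp2' hu eu hG eG eL hL eL2
  have h3 : ∫ z, (N z - lin R u z) ^ 2 * G z ∂(gI κ)
      = ∫ z, N z ^ 2 * G z ∂(gI κ) - 2 * ∫ z, N z * lin R u z * G z ∂(gI κ)
        + ∫ z, (lin R u z) ^ 2 * G z ∂(gI κ) := by
    have i1 := ((eN.pow 2).mul eG).integrable
    have i2 : Integrable (fun z => 2 * (N z * lin R u z * G z)) (gI κ) :=
      (((eN.mul elin).mul eG).integrable).const_mul 2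
    have i3 := ((elin.pow 2).mul eG).integrable
    have i4 : Integrable (fun z => N z ^ 2 * G z - 2 * (N z * lin R u z * G z)) (gI κ) :=
      i1.sub i2
    rw [← integral_const_mul, ← integral_sub i1 i2, ← integral_add i4 i3]
    refine integral_congr_ae (Eventually.of_forall fun z => ?_)
    simp only
    ring
  rw [h3, hN, h1, h2]
  ring

/-- **the Bessel bound** (`G ≥ 0`) -/
theorem bessel (hG0 : ∀ z, 0 ≤ G z) (hu : ∀ e ∈ R, Nd R (u e)) (eu : ∀ e ∈ R, EG (u e))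
    (hG : ∀ e ∈ R, PD e G fun z => G z * L e z) (eG : EG G) (eL : ∀ e ∈ R, EG (L e))
    (hL : ∀ e ∈ R, ∀ f ∈ R, PD f (L e) (L2 e f)) (eL2 : ∀ e ∈ R, ∀ f ∈ R, EG (L2 e f))
    (hφ : ∀ e ∈ R, PD e φ (φ1 e)) (eφ : EG φ) (eφ1 : ∀ e ∈ R, EG (φ1 e))
    {N : (κ → ℝ) → ℝ} (eN : EG N)
    (hN : ∫ z, N z * lin R u z * G z ∂(gI κ) = ∫ z, φ z * lin R u z * G z ∂(gI κ)) :
    2 * ∫ z, resp R u L φ1 φ z * G z ∂(gI κ)
        - ∫ z, (∑ e ∈ R, u e z ^ 2) * G z ∂(gI κ)
        - ∫ z, quad R u L L2 z * G z ∂(gI κ) ≤ ∫ z, N z ^ 2 * G z ∂(gI κ) := by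
  rw [star hu eu hG eG eL hL eL2 hφ eφ eφ1 eN hN]
  have : 0 ≤ ∫ z, (N z - lin R u z) ^ 2 * G z ∂(gI κ) :=
    integral_nonneg fun z => mul_nonneg (sq_nonneg _) (hG0 z)
  linarith

end Vale.Agent.P146.H161
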