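import Vale.Agent.P146.H161.RowStar

set_option linter.all false

/-!
The row identity of `RowStar` in the level form of `Bdl/B2` (`lev`, `J`, `Dep`): the frozen
coordinates have level `≤ l`, the row of the hidden site has level `l + 1`, and
`N = ce lev (l + 1) G φ` is the tilted conditional average of `φ` given the levels `≤ l + 1`.
Also the form `G = exp (x F)`.
-/

open MeasureTheory ProbabilityTheory Filter Topology

namespace Vale.Agent.P146.H161

open Vale.Agent.P157.Lv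

variable {κ : Type} [Fintype κ] {lev : κ → ℕ} {l : ℕ} {G φ : (κ → ℝ) → ℝ}

/-- The conditional average given the levels at most `l` under the weight `G`. -/
noncomputable def ce (lev : κ → ℕ) (l : ℕ) (G φ : (κ → ℝ) → ℝ) (z : κ → ℝ) : ℝ :=
  J lev l (fun z => G z * φ z) z / J lev l G z

lemma dep_ce : Dep lev l (ce lev l G φ) := by
  intro z w
  unfold ce
  rw [dep_J lev l _ z w, dep_J lev l _ z w]

lemma abs_ce_le (eG : EG G) (hG : ∀ z, 0 < G z) (eφ : EG φ) {C : ℝ} (hC : ∀ z, |φ z| ≤ C)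
    (z : κ → ℝ) : |ce lev l G φ z| ≤ C := by
  have h0 := J_pos (lev := lev) (l := l) eG hG z
  unfold ce
  rw [abs_div, abs_of_pos h0, div_le_iff₀ h0]
  have e1 : EG fun z => G z * φ z := eG.mul eφ
  have e2 : EG fun z => C * G z := eG.const_mul C
  have e3 : EG fun z => -(C * G z) := e2.neg
  refine abs_le.2 ⟨?_, ?_⟩
  · have h1 := J_mono (lev := lev) (l := l) e3 e1 (fun z => by
      have := (abs_le.1 (hC z)).1
      nlinarith [hG z]) z
    have h2 : J lev l (fun z => -(C * G z)) z = -(C * J lev l G z) := by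
      have := J_const_mul (lev := lev) (l := l) (-C) G z
      calc J lev l (fun z => -(C * G z)) z = J lev l (fun z => -C * G z) z := by
            congr 1; funext z; ring
        _ = _ := by rw [this]; ring
    linarith
  · have h1 := J_mono (lev := lev) (l := l) e1 e2 (fun z => by
      have := (abs_le.1 (hC z)).2
      nlinarith [hG z]) z
    rw [J_const_mul] at h1
    exact h1

lemma eg_ce (eG : EG G) (hG : ∀ z, 0 < G z) (eφ : EG φ) {C : ℝ} (hC : ∀ z, |φ z| ≤ C) :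
    EG (ce lev l G φ) := by
  refine EG.of_bdd ?_ (abs_ce_le eG hG eφ hC)
  exact ((eG.mul eφ).J lev l).meas.div (eG.J lev l).meas

/-- the defining property -/
lemma int_ce (eG : EG G) (hG : ∀ z, 0 < G z) (eφ : EG φ) {C : ℝ} (hC : ∀ z, |φ z| ≤ C)
    {v : (κ → ℝ) → ℝ} (hv : Dep lev l v) (ev : EG v) :
    ∫ z, ce lev l G φ z * v z * G z ∂(gI κ) = ∫ z, φ z * v z * G z ∂(gI κ) := by
  have ec := eg_ce (lev := lev) (l := l) eG hG eφ hC
  have h1 : ∫ z, ce lev l G φ z * v z * G z ∂(gI κ)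
      = ∫ z, J lev l (fun z => ce lev l G φ z * v z * G z) z ∂(gI κ) :=
    (integral_J ((ec.mul ev).mul eG)).symm
  have h2 : ∫ z, φ z * v z * G z ∂(gI κ)
      = ∫ z, J lev l (fun z => φ z * v z * G z) z ∂(gI κ) :=
    (integral_J ((eφ.mul ev).mul eG)).symm
  rw [h1, h2]
  refine integral_congr_ae (Eventually.of_forall fun z => ?_)
  have hd : Dep lev l fun z => ce lev l G φ z * v z := fun z w => by
    simp only [dep_ce z w, hv z w]
  show J lev l (fun z => ce lev l G φ z * v z * G z) z = J lev l (fun z => φ z * v z * G z) z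
  have h0 := J_pos (lev := lev) (l := l) eG hG z
  rw [hd.J_mul G z]
  have h3 : (fun z => φ z * v z * G z) = fun z => v z * (G z * φ z) := by
    funext z; ring
  rw [h3, hv.J_mul (fun z => G z * φ z) z]
  unfold ce
  field_simp

omit [Fintype κ] in
lemma dep_upd [DecidableEq κ] {u : (κ → ℝ) → ℝ} (h : Dep lev l u) {e : κ} (he : l < lev e)
    (z : κ → ℝ) (r : ℝ) : u (Function.update z e r) = u z := by
  have h1 := h (Function.update z e r) z
  rw [← h1]
  congr 1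
  funext j
  unfold mix
  by_cases hj : lev j ≤ l
  · have : j ≠ e := fun h => by subst h; omega
    simp [hj, Function.update_of_ne this]
  · simp [hj]

variable [DecidableEq κ]

/-- the coordinates of the level `l + 1` -/
def rw1 (lev : κ → ℕ) (l : ℕ) : Finset κ := Finset.univ.filter fun e => lev e = l + 1

lemma nd_of_dep {u : (κ → ℝ) → ℝ} (h : Dep lev l u) : Nd (rw1 lev l) u := by
  intro e he z r
  have : lev e = l + 1 := by simpa [rw1] using he
  exact dep_upd h (by omega) z r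

lemma dep_lin {u : κ → (κ → ℝ) → ℝ} (h : ∀ e ∈ rw1 lev l, Dep lev l (u e)) :
    Dep lev (l + 1) (lin (rw1 lev l) u) := by
  intro z w
  unfold lin
  refine Finset.sum_congr rfl fun e he => ?_
  have h1 : lev e = l + 1 := by simpa [rw1] using he
  rw [(h e he).mono (Nat.le_succ l) z w]
  congr 1
  unfold mix
  rw [if_pos h1.le]

variable {L φ1 : κ → (κ → ℝ) → ℝ} {L2 : κ → κ → (κ → ℝ) → ℝ} {u : κ → (κ → ℝ) → ℝ} {C : ℝ}

/-- **the row identity in the level form** -/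
theorem star_lev (hu : ∀ e ∈ rw1 lev l, Dep lev l (u e)) (eu : ∀ e ∈ rw1 lev l, EG (u e))
    (hG0 : ∀ z, 0 < G z)
    (hG : ∀ e ∈ rw1 lev l, PD e G fun z => G z * L e z) (eG : EG G)
    (eL : ∀ e ∈ rw1 lev l, EG (L e))
    (hL : ∀ e ∈ rw1 lev l, ∀ f ∈ rw1 lev l, PD f (L e) (L2 e f))
    (eL2 : ∀ e ∈ rw1 lev l, ∀ f ∈ rw1 lev l, EG (L2 e f))
    (hφ : ∀ e ∈ rw1 lev l, PD e φ (φ1 e)) (eφ : EG φ) (hC : ∀ z, |φ z| ≤ C)
    (eφ1 : ∀ e ∈ rw1 lev l, EG (φ1 e)) :
    ∫ z, ce lev (l + 1) G φ z ^ 2 * G z ∂(gI κ)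
      = 2 * ∫ z, resp (rw1 lev l) u L φ1 φ z * G z ∂(gI κ)
        - ∫ z, (∑ e ∈ rw1 lev l, u e z ^ 2) * G z ∂(gI κ)
        - ∫ z, quad (rw1 lev l) u L L2 z * G z ∂(gI κ)
        + ∫ z, (ce lev (l + 1) G φ z - lin (rw1 lev l) u z) ^ 2 * G z ∂(gI κ) :=
  star (fun e he => nd_of_dep (hu e he)) eu hG eG eL hL eL2 hφ eφ eφ1
    (eg_ce eG hG0 eφ hC)
    (int_ce eG hG0 eφ hC (dep_lin hu) (eg_lin eu))

/-- **the lower bound in the level form** -/
theorem bessel_lev (hu : ∀ e ∈ rw1 lev l, Dep lev l (u e)) (eu : ∀ e ∈ rw1 lev l, EG (u e))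
    (hG0 : ∀ z, 0 < G z)
    (hG : ∀ e ∈ rw1 lev l, PD e G fun z => G z * L e z) (eG : EG G)
    (eL : ∀ e ∈ rw1 lev l, EG (L e))
    (hL : ∀ e ∈ rw1 lev l, ∀ f ∈ rw1 lev l, PD f (L e) (L2 e f))
    (eL2 : ∀ e ∈ rw1 lev l, ∀ f ∈ rw1 lev l, EG (L2 e f))
    (hφ : ∀ e ∈ rw1 lev l, PD e φ (φ1 e)) (eφ : EG φ) (hC : ∀ z, |φ z| ≤ C)
    (eφ1 : ∀ e ∈ rw1 lev l, EG (φ1 e)) :
    2 * ∫ z, resp (rw1 lev l) u L φ1 φ z * G z ∂(gI κ)
        - ∫ z, (∑ e ∈ rw1 lev l, u e z ^ 2) * G z ∂(gI κ)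
        - ∫ z, quad (rw1 lev l) u L L2 z * G z ∂(gI κ)
      ≤ ∫ z, ce lev (l + 1) G φ z ^ 2 * G z ∂(gI κ) := by
  rw [star_lev hu eu hG0 hG eG eL hL eL2 hφ eφ hC eφ1]
  have : 0 ≤ ∫ z, (ce lev (l + 1) G φ z - lin (rw1 lev l) u z) ^ 2 * G z ∂(gI κ) :=
    integral_nonneg fun z => mul_nonneg (sq_nonneg _) (hG0 z).le
  linarith

/-! ### The weight `exp (x F)`, with a bounded level-`l` factor `ψ ≥ 0` -/

section expw

variable {F ψ : (κ → ℝ) → ℝ} {D : κ → (κ → ℝ) → ℝ} {H : κ → κ → (κ → ℝ) → ℝ} {x : ℝ}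

/-- the response of the observable: `Σ u_e (∂_e φ + x φ ∂_e F)` -/
noncomputable def rsp (R : Finset κ) (x : ℝ) (u D φ1 : κ → (κ → ℝ) → ℝ) (φ : (κ → ℝ) → ℝ)
    (z : κ → ℝ) : ℝ :=
  ∑ e ∈ R, u e z * (φ1 e z + x * φ z * D e z)

/-- the quadratic form: `Σ u_e u_f (x ∂_e ∂_f F + x² ∂_e F ∂_f F)` -/
noncomputable def qdr (R : Finset κ) (x : ℝ) (u D : κ → (κ → ℝ) → ℝ)
    (H : κ → κ → (κ → ℝ) → ℝ) (z : κ → ℝ) : ℝ :=
  ∑ e ∈ R, ∑ f ∈ R, u e z * u f z * (x * H e f z + x ^ 2 * (D e z * D f z))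

/-- **the row identity for the law with density `exp (x F)`**, with a factor `ψ` of the frozen
coordinates. The function `N` is the conditional average of `φ` under the weight `exp (x F)`
(without the factor `ψ`). -/
theorem star_exp (hu : ∀ e ∈ rw1 lev l, Dep lev l (u e)) (eu : ∀ e ∈ rw1 lev l, EG (u e))
    (hψ : Dep lev l ψ) (eψ : EG ψ)
    (hF : ∀ e ∈ rw1 lev l, PD e F (D e)) (eF : EG fun z => Real.exp (x * F z))
    (eD : ∀ e ∈ rw1 lev l, EG (D e))
    (hD : ∀ e ∈ rw1 lev l, ∀ f ∈ rw1 lev l, PD f (D e) (H e f))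
    (eH : ∀ e ∈ rw1 lev l, ∀ f ∈ rw1 lev l, EG (H e f))
    (hφ : ∀ e ∈ rw1 lev l, PD e φ (φ1 e)) (eφ : EG φ) (hC : ∀ z, |φ z| ≤ C)
    (eφ1 : ∀ e ∈ rw1 lev l, EG (φ1 e)) :
    ∫ z, ce lev (l + 1) (fun z => Real.exp (x * F z)) φ z ^ 2
        * (ψ z * Real.exp (x * F z)) ∂(gI κ)
      = 2 * ∫ z, rsp (rw1 lev l) x u D φ1 φ z * (ψ z * Real.exp (x * F z)) ∂(gI κ)
        - ∫ z, (∑ e ∈ rw1 lev l, u e z ^ 2) * (ψ z * Real.exp (x * F z)) ∂(gI κ)
        - ∫ z, qdr (rw1 lev l) x u D H z * (ψ z * Real.exp (x * F z)) ∂(gI κ)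
        + ∫ z, (ce lev (l + 1) (fun z => Real.exp (x * F z)) φ z - lin (rw1 lev l) u z) ^ 2
            * (ψ z * Real.exp (x * F z)) ∂(gI κ) := by
  have hE0 : ∀ z : κ → ℝ, 0 < Real.exp (x * F z) := fun z => Real.exp_pos _
  have hG : ∀ e ∈ rw1 lev l, PD e (fun z => ψ z * Real.exp (x * F z))
      (fun z => (ψ z * Real.exp (x * F z)) * (x * D e z)) := by
    intro e he
    have h1 := ((nd_of_dep hψ).pd he).mul (((hF e he).const_mul x).exp)
    refine h1.congr fun y => ?_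
    ring
  have eG : EG fun z => ψ z * Real.exp (x * F z) := eψ.mul eF
  have ec := eg_ce (lev := lev) (l := l + 1) eF hE0 eφ hC
  have hN : ∫ z, ce lev (l + 1) (fun z => Real.exp (x * F z)) φ z * lin (rw1 lev l) u z
        * (ψ z * Real.exp (x * F z)) ∂(gI κ)
      = ∫ z, φ z * lin (rw1 lev l) u z * (ψ z * Real.exp (x * F z)) ∂(gI κ) := by
    have hd : Dep lev (l + 1) fun z => lin (rw1 lev l) u z * ψ z := fun z w => by
      simp only [dep_lin hu z w, hψ.mono (Nat.le_succ l) z w]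
    have := int_ce (lev := lev) (l := l + 1) eF hE0 eφ hC hd ((eg_lin eu).mul eψ)
    calc _ = ∫ z, ce lev (l + 1) (fun z => Real.exp (x * F z)) φ z
          * (lin (rw1 lev l) u z * ψ z) * Real.exp (x * F z) ∂(gI κ) := by
          refine integral_congr_ae (Eventually.of_forall fun z => ?_)
          simp only
          ring
      _ = _ := this
      _ = _ := by
          refine integral_congr_ae (Eventually.of_forall fun z => ?_)
          simp only
          ring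
  have h := star (R := rw1 lev l) (G := fun z => ψ z * Real.exp (x * F z))
    (L := fun e z => x * D e z) (L2 := fun e f z => x * H e f z) (φ := φ) (φ1 := φ1) (u := u)
    (fun e he => nd_of_dep (hu e he)) eu hG eG (fun e he => (eD e he).const_mul x)
    (fun e he f hf => (hD e he f hf).const_mul x) (fun e he f hf => (eH e he f hf).const_mul x)
    hφ eφ eφ1 ec hN
  have h1 : ∀ z, resp (rw1 lev l) u (fun e z => x * D e z) φ1 φ z
      = rsp (rw1 lev l) x u D φ1 φ z := by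
    intro z
    unfold resp rsp
    exact Finset.sum_congr rfl fun e _ => by ring
  have h2 : ∀ z, quad (rw1 lev l) u (fun e z => x * D e z) (fun e f z => x * H e f z) z
      = qdr (rw1 lev l) x u D H z := by
    intro z
    unfold quad qdr
    exact Finset.sum_congr rfl fun e _ => Finset.sum_congr rfl fun f _ => by ring
  simp only [h1, h2] at h
  exact h

end expw

/-- **the quadratic term from below**, pointwise: `a = ⟨Y²⟩`, `b = ⟨Y⟩`, `c = ⟨σ Y⟩`, `d = ⟨σ⟩`;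
the hypothesis is Cauchy–Schwarz `⟨σ (Y - m)⟩² ≤ ⟨(Y - m)²⟩`. -/
lemma quad_low {x m a b c d : ℝ} (h0 : 0 ≤ x) (h1 : x ≤ 1)
    (h : (c - m * d) ^ 2 ≤ a - 2 * m * b + m ^ 2) :
    2 * m * b - m ^ 2 - (1 - x) * (2 * m * c * d - m ^ 2 * d ^ 2) ≤ a - (1 - x) * c ^ 2 := by
  nlinarith [sq_nonneg (c - m * d)]

/-- **two-sided form with rank one**: `r = ⟨(Y - m)²⟩`. -/
lemma quad_two {x m a b c d r : ℝ} (h0 : 0 ≤ x) (h1 : x ≤ 1)
    (hr : r = a - 2 * m * b + m ^ 2) (h : (c - m * d) ^ 2 ≤ r) (hd : |d| ≤ 1) :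
    |(a - (1 - x) * c ^ 2) - (2 * m * b - m ^ 2 - (1 - x) * m ^ 2 * d ^ 2)|
      ≤ 2 * r + 2 * |m| * Real.sqrt r := by
  have hr0 : 0 ≤ r := (sq_nonneg _).trans h
  have hs : |c - m * d| ≤ Real.sqrt r := by
    rw [← Real.sqrt_sq_eq_abs]
    exact Real.sqrt_le_sqrt h
  have e1 : (a - (1 - x) * c ^ 2) - (2 * m * b - m ^ 2 - (1 - x) * m ^ 2 * d ^ 2)
      = r - (1 - x) * ((c - m * d) ^ 2 + 2 * (m * d) * (c - m * d)) := by
    rw [hr]; ring
  rw [e1]
  have h2 : |(m * d) * (c - m * d)| ≤ |m| * Real.sqrt r := by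
    rw [abs_mul, abs_mul]
    calc |m| * |d| * |c - m * d| ≤ |m| * 1 * Real.sqrt r := by gcongr
      _ = _ := by ring
  have h3 : 0 ≤ |m| * Real.sqrt r := by positivity
  have h4 := abs_le.1 h2
  refine abs_le.2 ⟨?_, ?_⟩ <;> nlinarith [sq_nonneg (c - m * d)]

end Vale.Agent.P146.H161
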